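import Crest.Agent.N221.Ch.Defs

/-! Row 221, block Ch: families with jointly continuous jets (abstract). -/

set_option autoImplicit false
set_option linter.unusedSectionVars false
set_option linter.unusedVariables false

open MeasureTheory Set Filter Topology Metric
open scoped ContDiff RealInnerProductSpace ENNReal
open Crest.GeometryTopology.Submanifold
open Crest.Agent.R241.DDefs Crest.Agent.R241.D2
open Crest.Agent.R208.J Crest.Agent.R208.L

noncomputable section

namespace Crest.Agent.N221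

variable {P P' E V V' : Type} [TopologicalSpace P] [TopologicalSpace P']
  [NormedAddCommGroup E] [NormedSpace ℝ E] [NormedAddCommGroup V] [NormedSpace ℝ V]
  [NormedAddCommGroup V'] [NormedSpace ℝ V'] {F : P → E → V} {F' : P → E → V'} {K K' : Set (P × E)}

namespace Jet

lemma le_inf (j : ℕ) : (j : ℕ∞ω) ≤ (∞ : ℕ∞ω) := by exact_mod_cast le_top

lemma germ {f g : E → V} {x : E} (e : f =ᶠ[𝓝 x] g) (j : ℕ) :
    iteratedFDeriv ℝ j f x = iteratedFDeriv ℝ j g x := (e.iteratedFDeriv ℝ j).eq_of_nhds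

/-- the Taylor composition is continuous -/
lemma cont_tc {q : P → FormalMultilinearSeries ℝ V V'} {p : P → FormalMultilinearSeries ℝ E V}
    {s : Set P} {x : P} (hq : ∀ i, ContinuousWithinAt (fun y => q y i) s x)
    (hp : ∀ i, ContinuousWithinAt (fun y => p y i) s x) (j : ℕ) :
    ContinuousWithinAt (fun y => (q y).taylorComp (p y) j) s x := by
  refine tendsto_finsetSum _ fun c _ => ?_
  have h1 : ContinuousWithinAt (fun y => c.compAlongOrderedFinpartitionL ℝ E V V' (q y c.length)) s x :=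
    (c.compAlongOrderedFinpartitionL ℝ E V V').continuous.continuousAt.comp_continuousWithinAt (hq _)
  exact h1.eval (continuousWithinAt_pi.2 fun m => hp (c.partSize m))

/-- pointwise continuity is enough in finite dimension -/
lemma cont_ml [FiniteDimensional ℝ E] (j : ℕ) {f : P → E [×j]→L[ℝ] V}
    (h : ∀ v, Continuous fun x => f x v) : Continuous f := by
  induction j with
  | zero =>
    have := (continuousMultilinearCurryFin0 ℝ E V).symm.continuous.comp (h 0)
    refine this.congr fun x => ?_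
    ext v
    simp [Subsingleton.elim v 0]
  | succ j ih =>
    have h1 : Continuous fun x => continuousMultilinearCurryLeftEquiv ℝ (fun _ : Fin (j + 1) => E) V (f x) :=
      continuous_clm_apply.2 fun y => ih fun v => h (Fin.cons y v)
    exact (continuousMultilinearCurryLeftEquiv ℝ (fun _ : Fin (j + 1) => E) V).comp_continuous_iff.1 h1

end Jet

open Jet

lemma JC.mono (h : JC F K) (hK : K' ⊆ K) : JC F K' :=
  ⟨fun k hk => h.sm k (hK hk), fun j => (h.cont j).mono hK⟩

lemma JC.continuousOn (h : JC F K) : ContinuousOn (fun k : P × E => F k.1 k.2) K :=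
  ((continuousMultilinearCurryFin0 ℝ E V).continuous.comp_continuousOn (h.cont 0)).congr
    fun _ _ => rfl

lemma JC.continuousOn_fderiv (h : JC F K) :
    ContinuousOn (fun k : P × E => fderiv ℝ (F k.1) k.2) K :=
  ((continuousMultilinearCurryFin1 ℝ E V).continuous.comp_continuousOn (h.cont 1)).congr
    fun _ _ => by ext v; simp

/-- germs agree -/
lemma JC.congr {F₁ : P → E → V} (h : JC F K) (e : ∀ k ∈ K, F₁ k.1 =ᶠ[𝓝 k.2] F k.1) : JC F₁ K :=
  ⟨fun k hk => (h.sm k hk).congr_of_eventuallyEq (e k hk),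
    fun j => (h.cont j).congr fun k hk => germ (e k hk) j⟩

/-- locality -/
lemma JC.of_loc (h : ∀ k ∈ K, ∃ O ∈ 𝓝 k, JC F (K ∩ O)) : JC F K := by
  refine ⟨fun k hk => ?_, fun j k hk => ?_⟩
  · obtain ⟨O, hO, h'⟩ := h k hk
    exact h'.sm k ⟨hk, mem_of_mem_nhds hO⟩
  · obtain ⟨O, hO, h'⟩ := h k hk
    exact (continuousWithinAt_inter hO).1 (h'.cont j k ⟨hk, mem_of_mem_nhds hO⟩)

/-- change of the parameter space -/
lemma JC.par (h : JC F K) {φ : P' → P} {K₁ : Set (P' × E)}
    (hφ : ContinuousOn (fun k : P' × E => φ k.1) K₁) (hK : ∀ k ∈ K₁, (φ k.1, k.2) ∈ K) :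
    JC (fun p => F (φ p)) K₁ :=
  ⟨fun k hk => h.sm _ (hK k hk), fun j => (h.cont j).comp (hφ.prodMk continuousOn_snd) hK⟩

lemma JC.prodMk (h : JC F K) (h' : JC F' K) : JC (fun p x => (F p x, F' p x)) K :=
  ⟨fun k hk => (h.sm k hk).prodMk (h'.sm k hk), fun j =>
    ((ContinuousMultilinearMap.prodL ℝ (fun _ : Fin j => E) V V').continuous.comp_continuousOn
      ((h.cont j).prodMk (h'.cont j))).congr fun k hk =>
        iteratedFDeriv_prodMk (h.sm k hk) (h'.sm k hk) (le_inf j)⟩

lemma JC.id : JC (fun (_ : P) (x : E) => x) K :=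
  ⟨fun _ _ => contDiffAt_id, fun j =>
    ((contDiff_id.continuous_iteratedFDeriv (le_inf j)).comp continuous_snd).continuousOn⟩

lemma JC.const {c : P → V} (hc : ContinuousOn (fun k : P × E => c k.1) K) :
    JC (fun p (_ : E) => c p) K := by
  refine ⟨fun _ _ => contDiffAt_const, fun j => ?_⟩
  cases j with
  | zero => exact (continuousMultilinearCurryFin0 ℝ E V).symm.continuous.comp_continuousOn hc
  | succ j =>
    simp only [iteratedFDeriv_succ_const]
    exact continuousOn_const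

/-- local representation by jointly smooth maps -/
lemma JC.of_rep {Q : Type} [NormedAddCommGroup Q] [NormedSpace ℝ Q] {F : Q → E → V}
    {K : Set (Q × E)} {A : Set Q} (hA : ∀ k ∈ K, k.1 ∈ A)
    (h : ∀ k ∈ K, ∃ T : Q × E → V, ContDiffAt ℝ ∞ T k ∧
      ∀ᶠ k' in 𝓝 k, k'.1 ∈ A → F k'.1 k'.2 = T k') : JC F K := by
  have g : ∀ {T : Q × E → V} {k : Q × E}, k.1 ∈ A → (∀ᶠ k' in 𝓝 k, k'.1 ∈ A → F k'.1 k'.2 = T k') →
      F k.1 =ᶠ[𝓝 k.2] T ∘ fun x => (k.1, x) := fun {T k} hk e =>
    (((Continuous.prodMk_right k.1).tendsto k.2).eventually e).mono fun x hx => hx hk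
  have hp : JC (fun (q : Q) (x : E) => (q, x)) K := (JC.const continuousOn_fst).prodMk JC.id
  refine ⟨fun k hk => ?_, fun j k hk => ?_⟩
  · obtain ⟨T, hT, e⟩ := h k hk
    exact (ContDiffAt.comp k.2 hT (hp.sm k hk)).congr_of_eventuallyEq (g (hA k hk) e)
  · obtain ⟨T, hT, e⟩ := h k hk
    refine (cont_tc (q := fun k' => ftaylorSeries ℝ T k')
      (p := fun k' : Q × E => ftaylorSeries ℝ (fun x => (k'.1, x)) k'.2)
      (fun i => (hT.continuousAt_iteratedFDeriv (le_inf i)).continuousWithinAt)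
      (fun i => hp.cont i k hk) j).congr_of_eventuallyEq_of_mem ?_ hk
    filter_upwards [self_mem_nhdsWithin, mem_nhdsWithin_of_mem_nhds e.eventually_nhds,
      mem_nhdsWithin_of_mem_nhds ((hT.of_le (le_inf j)).eventually (by simp))] with k' hk' e' hT'
    rw [germ (g (hA k' hk') e') j]
    exact iteratedFDeriv_comp hT' ((hp.sm k' hk').of_le (le_inf j)) le_rfl

/-- jointly smooth families (partial iterated derivative = iterated derivative composed with
`inr`, `ContinuousLinearMap.iteratedFDeriv_comp_right` after translation) -/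
lemma JC.of_smooth {Q : Type} [NormedAddCommGroup Q] [NormedSpace ℝ Q] {T : Q × E → V}
    {K : Set (Q × E)} (h : ∀ k ∈ K, ContDiffAt ℝ ∞ T k) : JC (fun p x => T (p, x)) K :=
  JC.of_rep (A := univ) (fun _ _ => trivial) fun k hk => ⟨T, h k hk, .of_forall fun _ _ => rfl⟩

/-- smooth maps into `C(X, V)` -/
lemma JC.eval {Q X : Type} [NormedAddCommGroup Q] [NormedSpace ℝ Q] [TopologicalSpace X]
    [CompactSpace X] [FiniteDimensional ℝ E] {B : Q × E → C(X, V)} (hB : ContDiff ℝ ∞ B) :
    JC (fun (p : Q × X) x => B (p.1, x) p.2) univ := by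
  have h : JC (fun q x => B (q, x)) univ := JC.of_smooth fun _ _ => hB.contDiffAt
  refine ⟨fun k _ => (ContinuousMap.evalCLM ℝ k.1.2 : C(X, V) →L[ℝ] V).contDiff.contDiffAt.comp k.2
    (h.sm (k.1.1, k.2) trivial), fun j => Continuous.continuousOn (cont_ml j fun v => ?_)⟩
  have h1 : Continuous fun k : (Q × X) × E => iteratedFDeriv ℝ j (fun x => B (k.1.1, x)) k.2 v :=
    ((continuousOn_univ.1 (h.cont j)).comp (f := fun k : (Q × X) × E => (k.1.1, k.2))
      (by fun_prop)).eval_const v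
  refine (h1.eval (g := fun k : (Q × X) × E => k.1.2) (by fun_prop)).congr fun k => ?_
  exact (DFunLike.congr_fun ((ContinuousMap.evalCLM ℝ k.1.2 : C(X, V) →L[ℝ] V).iteratedFDeriv_comp_left
    (h.sm (k.1.1, k.2) trivial) (le_inf j)) v).symm

/-- composition (`iteratedFDeriv_comp`, `taylorComp` is a finite sum of continuous terms) -/
lemma JC.comp {Φ : P → V → V'} {K₁ : Set (P × V)} (hΦ : JC Φ K₁) (h : JC F K)
    (hK : ∀ k ∈ K, (k.1, F k.1 k.2) ∈ K₁) : JC (fun p x => Φ p (F p x)) K := by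
  refine ⟨fun k hk => ContDiffAt.comp k.2 (hΦ.sm _ (hK k hk)) (h.sm k hk), fun j => ?_⟩
  refine ContinuousOn.congr (fun k hk => cont_tc
    (q := fun k : P × E => ftaylorSeries ℝ (Φ k.1) (F k.1 k.2))
    (p := fun k : P × E => ftaylorSeries ℝ (F k.1) k.2) (fun i => ?_) (fun i => h.cont i k hk) j)
    fun k hk => iteratedFDeriv_comp (g := Φ k.1) (f := F k.1) (hΦ.sm _ (hK k hk)) (h.sm k hk) (le_inf j)
  exact (hΦ.cont i).comp (continuousOn_fst.prodMk h.continuousOn) hK k hk

lemma JC.smooth_comp {φ : V → V'} (h : JC F K) (hφ : ∀ k ∈ K, ContDiffAt ℝ ∞ φ (F k.1 k.2)) :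
    JC (fun p x => φ (F p x)) K :=
  JC.comp (Φ := fun _ => φ) (K₁ := {k | ContDiffAt ℝ ∞ φ k.2}) ⟨fun _ hk => hk, fun j k hk =>
    ((ContDiffAt.continuousAt_iteratedFDeriv (f := φ) (n := ∞) hk (le_inf j)).comp continuousAt_snd).continuousWithinAt⟩
    h hφ

lemma JC.fderiv (h : JC F K) : JC (fun p x => fderiv ℝ (F p) x) K :=
  ⟨fun k hk => (h.sm k hk).fderiv_right (by simp), fun j =>
    ((continuousMultilinearCurryRightEquiv' ℝ j E V).continuous.comp_continuousOn
      (h.cont (j + 1))).congr fun k _ => by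
        simp only [Function.comp_apply, iteratedFDeriv_succ_eq_comp_right,
          LinearIsometryEquiv.apply_symm_apply]⟩

lemma JC.add {F₁ : P → E → V} (h : JC F K) (h' : JC F₁ K) : JC (fun p x => F p x + F₁ p x) K :=
  (h.prodMk h').smooth_comp (φ := fun z : V × V => z.1 + z.2) fun _ _ =>
    contDiffAt_fst.add contDiffAt_snd

lemma JC.bdd (h : JC F K) (hK : IsCompact K) : JB F K := fun j =>
  hK.exists_bound_of_continuousOn (h.cont j)

omit [TopologicalSpace P] in
lemma JB.mono (h : JB F K) (hK : K' ⊆ K) : JB F K' := fun j =>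
  (h j).imp fun _ hB k hk => hB k (hK hk)

omit [TopologicalSpace P] in
/-- transfer of bounds along a symmetry -/
lemma JB.of_germ (h : JB F K) (e : ∀ k ∈ K', ∃ p, (p, k.2) ∈ K ∧ F k.1 =ᶠ[𝓝 k.2] F p) :
    JB F K' := fun j => (h j).imp fun _ hB k hk => by
  obtain ⟨p, hp, e'⟩ := e k hk
  rw [germ e' j]
  exact hB _ hp

end Crest.Agent.N221
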