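import Crest.Agent.N221.Ch.Crs
import Crest.Agent.N221.Ch.Jet

/-! Row 221, block Ch: continuity of all jets in the parameters, uniform `C^k` bounds. -/

set_option autoImplicit false
set_option linter.unusedSectionVars false
set_option linter.unusedVariables false
set_option maxHeartbeats 400000

open MeasureTheory Set Filter Topology Metric
open scoped ContDiff RealInnerProductSpace ENNReal
open Crest.GeometryTopology.Submanifold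
open Crest.Agent.R241.DDefs Crest.Agent.R241.D2
open Crest.Agent.R208.J Crest.Agent.R208.L

noncomputable section

namespace Crest.Agent.N221.ChU

variable {n m : ℕ}

lemma contDiff_det : ContDiff ℝ ∞ (fun T : Euc m →L[ℝ] Euc m => T.det) := by
  have h : (fun T : Euc m →L[ℝ] Euc m => T.det) = fun T => ∑ σ : Equiv.Perm (Fin m),
      ((Equiv.Perm.sign σ : ℤ) : ℝ) * ∏ k, T (EuclideanSpace.single k 1) (σ k) := by
    funext T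
    change LinearMap.det (T : Euc m →ₗ[ℝ] Euc m) = _
    rw [← LinearMap.det_toMatrix (EuclideanSpace.basisFun (Fin m) ℝ).toBasis, Matrix.det_apply']
    simp [LinearMap.toMatrix_apply]
  rw [h]
  refine ContDiff.sum fun σ _ => contDiff_const.mul (contDiff_prod fun k _ => ?_)
  exact (EuclideanSpace.proj (𝕜 := ℝ) (σ k)).contDiff.comp
    (contDiff_id.clm_apply (contDiff_const (c := (EuclideanSpace.single k (1 : ℝ) : Euc m))))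

/-- from the sphere to `‖ξ‖ = 1` -/
lemma jc_sph {Q E V : Type} [NormedAddCommGroup Q] [NormedSpace ℝ Q] [NormedAddCommGroup E]
    [NormedSpace ℝ E] [FiniteDimensional ℝ E] [NormedAddCommGroup V] [NormedSpace ℝ V]
    {Φ : Euc n → Euc n → V}
    (hB : ∃ B : Euc n → C(sphere (0 : Euc n) 1, V), ContDiff ℝ ∞ B ∧ ∀ y ξ, B y ξ = Φ ξ y)
    {ψ : Q × E → Euc n} (hψ : ContDiff ℝ ∞ ψ) :
    JC (fun (p : Q × Euc n) q => Φ p.2 (ψ (p.1, q))) {k | ‖k.1.2‖ = 1} := by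
  obtain ⟨B, hB, e⟩ := hB
  have h := JC.eval (hB.comp hψ)
  simp only [Function.comp_apply, e] at h
  refine ⟨fun k hk => h.sm ((k.1.1, ⟨k.1.2, mem_sphere_zero_iff_norm.2 hk⟩), k.2) trivial,
    fun j => continuousOn_iff_continuous_domRestrict.2 ?_⟩
  exact (continuousOn_univ.1 (h.cont j)).comp
    (f := fun k : {k : (Q × Euc n) × E | ‖k.1.2‖ = 1} =>
      ((k.1.1.1, (⟨k.1.1.2, mem_sphere_zero_iff_norm.2 k.2⟩ : sphere (0 : Euc n) 1)), k.1.2))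
    (by fun_prop)

end Crest.Agent.N221.ChU

namespace Crest.Agent.N221.Cov

variable {n N m : ℕ} {a : ℝ} {S : Set (Euc N)} {G : Geo n N (-(a ^ 2)) S} (C : Cov G)
variable {f f' f'' : FF n N m} {z z' : ZZ m} {x y y' ξ η : Euc n} {v u u' : Euc N} {q q' : Euc m}
  {g : Euc n → Euc n} {s t : ℝ}
variable (H : Hyp n N a S) (hm : m + 1 = n)
include H

/-! ### jets along the leaves, continuous in the frame and in `ξ` -/

lemma jc_W : JC (fun (p : FF n N m × Euc n) q => C.W p.2 (C.hy p.1 q)) {k | ‖k.1.2‖ = 1} :=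
  ChU.jc_sph (Φ := C.W) (ψ := fun k : FF n N m × Euc m => C.hy k.1 k.2) (C.smooth_W H horT)
    C.contDiff_hy

omit H in
lemma unif_jc_Jh (K : Set ((FF n N m × Euc n) × Euc m)) :
    JC (fun (p : FF n N m × Euc n) q => C.Jh p.1 q) K :=
  JC.of_smooth (T := fun k : (FF n N m × Euc n) × Euc m => C.Jh k.1.1 k.2) fun k _ =>
    (C.contDiff_Jh.comp (f := fun k : (FF n N m × Euc n) × Euc m => (k.1.1, k.2))
      (by fun_prop)).contDiffAt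

omit H in
lemma unif_jc_pr (K : Set ((FF n N m × Euc n) × Euc m)) :
    JC (fun (p : FF n N m × Euc n) q => C.pr (C.hy p.1 q)) K :=
  JC.of_smooth (T := fun k : (FF n N m × Euc n) × Euc m => C.pr (C.hy k.1.1 k.2)) fun k _ =>
    (C.pr_smooth.comp (C.contDiff_hy.comp
      (f := fun k : (FF n N m × Euc n) × Euc m => (k.1.1, k.2)) (by fun_prop))).contDiffAt

lemma jc_bq : JC (fun (p : FF n N m × Euc n) => C.bq p.1 p.2) {k | ‖k.1.2‖ = 1} :=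
  ((ChU.jc_sph (C.smooth_b H horT) (ψ := fun k : FF n N m × Euc m => k.1.1) (by fun_prop)).prodMk
    (ChU.jc_sph (C.smooth_b H horT) C.contDiff_hy)).smooth_comp (φ := fun w : ℝ × ℝ => w.1 - w.2)
    fun _ _ => by fun_prop

lemma jc_pq : JC (fun (p : FF n N m × Euc n) => C.pq p.1 p.2) {k | ‖k.1.2‖ = 1} :=
  ((C.unif_jc_Jh _).prodMk (C.jc_W H)).smooth_comp
    (φ := fun w : (Euc m →L[ℝ] Euc N) × Euc N => w.1.adjoint w.2) fun _ _ =>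
      ((contDiff_adj.comp contDiff_fst).clm_apply contDiff_snd).contDiffAt

lemma jc_HH : JC (fun (p : FF n N m × Euc n) => C.HH p.1 p.2) {k | ‖k.1.2‖ = 1} :=
  (C.jc_pq H).fderiv

lemma jc_gs : JC (fun (p : FF n N m × Euc n) => C.gs p.1 p.2) {k | ‖k.1.2‖ = 1} :=
  JC.id.prodMk (C.jc_pq H)

lemma jc_gu : JC (fun (p : FF n N m × Euc n) => C.gu p.1 p.2) {k | ‖k.1.2‖ = 1} :=
  JC.id.prodMk ((C.jc_pq H).smooth_comp (φ := fun w : Euc m => -w) fun _ _ => by fun_prop)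

omit H in
/-- from continuity to uniform bounds for deck invariant families -/
lemma jb_of_jc {V : Type} [NormedAddCommGroup V] [NormedSpace ℝ V]
    {F : FF n N m × Euc n → Euc m → V} {A : FF n N m → Euc n → Prop} {R : ℝ}
    (hA : IsClosed {p : FF n N m × Euc n | C.Frm p.1 ∧ ‖p.2‖ = 1 ∧ A p.1 p.2})
    (h : JC F {k | (C.Frm k.1.1 ∧ ‖k.1.2‖ = 1 ∧ A k.1.1 k.1.2) ∧ ‖k.2‖ ≤ R})
    (hinv : ∀ f ξ g, C.Frm f → ‖ξ‖ = 1 → A f ξ → C.Deck g →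
      ∃ ξ', ‖ξ'‖ = 1 ∧ A (fg g f) ξ' ∧ F (fg g f, ξ') = F (f, ξ)) :
    JB F {k | (C.Frm k.1.1 ∧ ‖k.1.2‖ = 1 ∧ A k.1.1 k.1.2) ∧ ‖k.2‖ ≤ R} := by
  obtain ⟨D, -, hD⟩ := C.exists_deck
  have hK := (((C.isCompact_frm (m := m) D).prod (isCompact_sphere (0 : Euc n) 1)).inter_left
    hA).prod (isCompact_closedBall (0 : Euc m) R)
  refine ((h.mono fun k hk => ⟨hk.1.1, mem_closedBall_zero_iff.1 hk.2⟩).bdd hK).of_germ
    fun k hk => ?_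
  obtain ⟨g, hg, h1⟩ := hD k.1.1.1
  obtain ⟨ξ', h2, h3, h4⟩ := hinv k.1.1 k.1.2 g hk.1.1 hk.1.2.1 hk.1.2.2 hg
  have h5 := Frm.fg C hk.1.1 hg
  exact ⟨(fg g k.1.1, ξ'), ⟨⟨⟨h5, h2, h3⟩, ⟨h5, h1⟩, mem_sphere_zero_iff_norm.2 h2⟩,
    mem_closedBall_zero_iff.2 hk.2⟩, h4 ▸ EventuallyEq.rfl⟩

omit H in
lemma unif_closed : IsClosed {p : FF n N m × Euc n | C.Frm p.1 ∧ ‖p.2‖ = 1} :=
  (C.isClosed_frm.preimage continuous_fst).inter (isClosed_eq (by fun_prop) continuous_const)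

lemma unif_jb {V : Type} [NormedAddCommGroup V] [NormedSpace ℝ V]
    {F : FF n N m × Euc n → Euc m → V} (h : JC F {k | ‖k.1.2‖ = 1})
    (hinv : ∀ f ξ g, C.Frm f → C.Deck g → ξ ≠ 0 → F (fg g f, C.act g ξ) = F (f, ξ)) (R : ℝ) :
    JB F {k | C.Frm k.1.1 ∧ ‖k.1.2‖ = 1 ∧ ‖k.2‖ ≤ R} :=
  (C.jb_of_jc (A := fun _ _ => True) (R := R) (by simpa using C.unif_closed)
    (h.mono fun k hk => hk.1.2.1) fun f ξ g hf hξ _ hg =>
      ⟨_, C.norm_act H.a_pos hg (bas_ne0 hξ), trivial, hinv f ξ g hf hg (bas_ne0 hξ)⟩).mono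
    fun k hk => ⟨⟨hk.1, hk.2.1, trivial⟩, hk.2.2⟩

lemma jb_bq (R : ℝ) : JB (fun (p : FF n N m × Euc n) => C.bq p.1 p.2)
    {k | C.Frm k.1.1 ∧ ‖k.1.2‖ = 1 ∧ ‖k.2‖ ≤ R} :=
  C.unif_jb H (C.jc_bq H) (fun _ _ _ hf hg hξ => C.bq_fg H hf hg hξ) R

lemma jb_pq (R : ℝ) : JB (fun (p : FF n N m × Euc n) => C.pq p.1 p.2)
    {k | C.Frm k.1.1 ∧ ‖k.1.2‖ = 1 ∧ ‖k.2‖ ≤ R} :=
  C.unif_jb H (C.jc_pq H) (fun _ _ _ hf hg hξ => C.pq_fg H hf hg hξ) R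

lemma jb_HH (R : ℝ) : JB (fun (p : FF n N m × Euc n) => C.HH p.1 p.2)
    {k | C.Frm k.1.1 ∧ ‖k.1.2‖ = 1 ∧ ‖k.2‖ ≤ R} :=
  C.unif_jb H (C.jc_HH H) (fun _ _ _ hf hg hξ => C.HH_fg H hf hg hξ) R

lemma jb_gs (R : ℝ) : JB (fun (p : FF n N m × Euc n) => C.gs p.1 p.2)
    {k | C.Frm k.1.1 ∧ ‖k.1.2‖ = 1 ∧ ‖k.2‖ ≤ R} :=
  C.unif_jb H (C.jc_gs H) (fun _ _ _ hf hg hξ => C.gs_fg H hf hg hξ) R

lemma jb_gu (R : ℝ) : JB (fun (p : FF n N m × Euc n) => C.gu p.1 p.2)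
    {k | C.Frm k.1.1 ∧ ‖k.1.2‖ = 1 ∧ ‖k.2‖ ≤ R} :=
  C.unif_jb H (C.jc_gu H) (fun _ _ _ hf hg hξ => C.gu_fg H hf hg hξ) R

include hm

lemma jc_aa {h c : ℝ} {α : TT N → ℝ} (hc : Co G h α c) :
    JC (fun (p : FF n N m × Euc n) => C.aa α c p.1 p.2)
      {k | C.Frm k.1.1 ∧ C.Fw k.1.1 k.1.2 ∧ ‖k.2‖ ≤ 2 * C.rr m} := by
  have hs : {k : (FF n N m × Euc n) × Euc m | C.Frm k.1.1 ∧ C.Fw k.1.1 k.1.2 ∧
      ‖k.2‖ ≤ 2 * C.rr m} ⊆ {k | ‖k.1.2‖ = 1} := fun k hk => hk.2.1.1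
  have h1 := (ChU.jc_sph (Φ := fun ξ y => α (rev (C.pr y, C.W ξ y)))
    (C.smooth_al H horT cobT hc.cont hc.cob) (C.contDiff_hy (m := m))).mono hs
  have h2 := (((C.unif_jc_pr _).prodMk ((C.jc_W H).mono hs)).prodMk (C.unif_jc_Jh _)).smooth_comp
    (φ := fun w : (Euc N × Euc N) × (Euc m →L[ℝ] Euc N) => Pv G w.1 ∘L w.2) fun _ _ =>
      ((contDiff_Pv.comp contDiff_fst).clm_comp contDiff_snd).contDiffAt
  have h3 := h2.smooth_comp (φ := fun B : Euc m →L[ℝ] Euc N => Real.log (B.adjoint ∘L B).det)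
    fun k hk => (ChU.contDiff_det.comp (contDiff_adj.clm_comp contDiff_id)).contDiffAt.log
      (det_gram_pos (J := C.Bs k.1.1 k.1.2 k.2) ((injective_iff_map_eq_zero _).2 fun e he => by
        have := (C.Bs_bd H hm hk.1 hk.2.1 hk.2.2 e).1
        rwa [he, norm_zero, mul_zero, norm_le_zero_iff] at this)).ne'
  exact (h1.prodMk h3).smooth_comp (φ := fun w : ℝ × ℝ => w.1 + w.2 / 2 + c / 2)
    fun _ _ => by fun_prop

lemma jb_aa {h c : ℝ} {α : TT N → ℝ} (hc : Co G h α c) :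
    JB (fun (p : FF n N m × Euc n) => C.aa α c p.1 p.2)
      {k | C.Frm k.1.1 ∧ C.Fw k.1.1 k.1.2 ∧ ‖k.2‖ ≤ 2 * C.rr m} := by
  have h1 : ContinuousOn (fun p : FF n N m × Euc n => ⟪C.W p.2 p.1.1, p.1.2.1⟫)
      {p | C.Frm p.1 ∧ ‖p.2‖ = 1} :=
    ContinuousOn.inner ((C.continuousOn_W H.a_pos).comp
      (f := fun p : FF n N m × Euc n => (p.2, p.1.1)) (by fun_prop) fun p hp => bas_ne0 hp.2)
      (by fun_prop)
  have h2 := (C.unif_closed (m := m)).isClosed_le (continuousOn_const (c := 1 / 2)) h1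
  refine (C.jb_of_jc (A := C.Fw) (R := 2 * C.rr m) ?_
    ((C.jc_aa H hm hc).mono fun k hk => ⟨hk.1.1, hk.1.2.2, hk.2⟩) fun f ξ g hf hξ hF hg =>
      ⟨_, C.norm_act H.a_pos hg (bas_ne0 hξ), C.Fw_fg H hg hF,
        C.aa_fg H α c hf hg (bas_ne0 hξ)⟩).mono fun k hk => ⟨⟨hk.1, hk.2.1.1, hk.2.1⟩, hk.2.2⟩
  convert h2 using 1
  exact Set.ext fun p => ⟨fun h => ⟨⟨h.1, h.2.1⟩, h.2.2.2⟩, fun h => ⟨h.1.1, h.1.2, h.1.2, h.2⟩⟩

lemma continuousOn_Ss : ContinuousOn (fun k : FF n N m × ZZ m => C.Ss k.1 k.2)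
    {k | C.Frm k.1 ∧ k.2 ∈ C.Dm k.1} :=
  (C.jc_HH H).continuousOn.comp
    (f := fun k : FF n N m × ZZ m => ((k.1, (C.ge k.1 k.2).1), k.2.1))
    ((continuousOn_fst.prodMk (C.continuousOn_ge H).fst).prodMk (by fun_prop))
    fun k hk => (C.ge_GG H hk.1 hk.2).1

lemma continuousOn_Su : ContinuousOn (fun k : FF n N m × ZZ m => C.Su k.1 k.2)
    {k | C.Frm k.1 ∧ k.2 ∈ C.Dm k.1} :=
  ((C.jc_HH H).continuousOn.comp
    (f := fun k : FF n N m × ZZ m => ((k.1, (C.ge k.1 k.2).2), k.2.1))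
    ((continuousOn_fst.prodMk (C.continuousOn_ge H).snd).prodMk (by fun_prop))
    fun k hk => (C.ge_GG H hk.1 hk.2).2.1).neg

/-! ### transition maps -/

omit H hm in
/-- the domain of the transition maps with the margin `2 rr` -/
def unifDom (m : ℕ) : Set ((FF n N m × FF n N m) × ZZ m) :=
  {k | C.Frm k.1.1 ∧ C.Frm k.1.2 ∧ k.2 ∈ C.Dm k.1.1 ∧
    ∃ z', ‖z'‖ < 2 * C.rr m ∧ C.ge k.1.2 z' = C.ge k.1.1 k.2}

lemma unif_jc_T : JC (fun p : FF n N m × FF n N m => C.Tf p.1 p.2) (C.unifDom m) ∧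
    JC (fun p : FF n N m × FF n N m => C.tm p.1 p.2) (C.unifDom m) := by
  constructor
  all_goals
    refine JC.of_rep (A := {p | C.Frm p.1 ∧ C.Frm p.2}) (fun k hk => ⟨hk.1, hk.2.1⟩) fun k hk => ?_
    obtain ⟨h1, h2, h3, z', h4, h5⟩ := hk
    obtain ⟨T, τ, hT, hτ, -, e⟩ := C.loc_rep H hm h1 h2 h3 h4 h5
  · exact ⟨T, hT, e.mono fun k' h hk' => (h hk'.1 hk'.2).2.1⟩
  · exact ⟨τ, hτ, e.mono fun k' h hk' => (h hk'.1 hk'.2).2.2⟩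

lemma unif_mem (hf : C.Frm f) (hf' : C.Frm f') (hz : z ∈ C.dm f f') :
    ((f, f'), z) ∈ C.unifDom m := by
  have h0 := C.rr_pos H hm
  obtain ⟨h1, z', h2, h3⟩ := hz
  exact ⟨hf, hf', C.Dm_of_le H hm hf (by linarith), z',
    by linarith [mem_ball_zero_iff.1 h2], h3⟩

/-- a compact set that meets every deck orbit -/
lemma unif_cpt (R : ℝ) : ∃ K ⊆ C.unifDom m, IsCompact K ∧ ∀ f f' : FF n N m, C.Frm f → C.Frm f' →
    C.dd f.1 f'.1 ≤ R → ∃ g, C.Deck g ∧ ∀ z ∈ C.dm f f', ((fg g f, fg g f'), z) ∈ K := by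
  have h0 := C.rr_pos H hm
  obtain ⟨D, -, hD⟩ := C.exists_deck
  have hB := isCompact_closedBall (0 : ZZ m) (C.rr m)
  have hK := (((C.isCompact_frm (m := m) D).prod (C.isCompact_frm (m := m) (D + R))).prod hB).prod hB
  have hd : ∀ {f : FF n N m} {z : ZZ m}, C.Frm f → z ∈ closedBall (0 : ZZ m) (C.rr m) →
      z ∈ C.Dm f := fun hf hz => C.Dm_of_le H hm hf (by linarith [mem_closedBall_zero_iff.1 hz])
  have hc := hK.isClosed.isClosed_eq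
    ((C.continuousOn_ge H).comp
      (f := fun w : ((FF n N m × FF n N m) × ZZ m) × ZZ m => (w.1.1.2, w.2)) (by fun_prop)
      fun w hw => ⟨hw.1.1.2.1, hd hw.1.1.2.1 hw.2⟩)
    ((C.continuousOn_ge H).comp
      (f := fun w : ((FF n N m × FF n N m) × ZZ m) × ZZ m => (w.1.1.1, w.1.2)) (by fun_prop)
      fun w hw => ⟨hw.1.1.1.1, hd hw.1.1.1.1 hw.1.2⟩)
  refine ⟨_, ?_, (hK.of_isClosed_subset hc fun w hw => hw.1).image continuous_fst,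
    fun f f' hf hf' hR => ?_⟩
  · rintro _ ⟨w, ⟨hw, e⟩, rfl⟩
    exact ⟨hw.1.1.1.1, hw.1.1.2.1, hd hw.1.1.1.1 hw.1.2, w.2,
      by linarith [mem_closedBall_zero_iff.1 hw.2], e⟩
  · obtain ⟨g, hg, h1⟩ := hD f.1
    refine ⟨g, hg, fun z hz => ?_⟩
    rw [← C.dm_fg H hm hf hf' hg] at hz
    obtain ⟨h2, z', h3, h4⟩ := hz
    have h5 := C.norm_le_of_dd H.a_pos.le (g f.1) (g f'.1)
    rw [Deck.dd_eq C hg] at h5
    exact ⟨(((fg g f, fg g f'), z), z'), ⟨⟨⟨⟨⟨Frm.fg C hf hg, h1⟩, Frm.fg C hf' hg, h5.trans (add_le_add h1 hR)⟩,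
      mem_closedBall_zero_iff.2 h2.le⟩, ball_subset_closedBall h3⟩, h4⟩, rfl⟩

lemma jc_Tf : JC (fun p : FF n N m × FF n N m => C.Tf p.1 p.2)
    {k | C.Frm k.1.1 ∧ C.Frm k.1.2 ∧ k.2 ∈ C.dm k.1.1 k.1.2} :=
  (C.unif_jc_T H hm).1.mono fun k hk =>
    C.unif_mem H hm (f := k.1.1) (f' := k.1.2) (z := k.2) hk.1 hk.2.1 hk.2.2

lemma jc_tm : JC (fun p : FF n N m × FF n N m => C.tm p.1 p.2)
    {k | C.Frm k.1.1 ∧ C.Frm k.1.2 ∧ k.2 ∈ C.dm k.1.1 k.1.2} :=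
  (C.unif_jc_T H hm).2.mono fun k hk =>
    C.unif_mem H hm (f := k.1.1) (f' := k.1.2) (z := k.2) hk.1 hk.2.1 hk.2.2

/-- `JC.of_rep` (`loc_rep`) on the compact set of `((f, f'), z)`, `‖x‖ ≤ D`, `dd x x' ≤ R`,
`‖z‖ ≤ rr`, `ge f z ∈ ge f' '' closedBall 0 rr`; `Tf_fg` on the open set `dm` -/
lemma jb_Tf (R : ℝ) : JB (fun p : FF n N m × FF n N m => C.Tf p.1 p.2)
    {k | C.Frm k.1.1 ∧ C.Frm k.1.2 ∧ C.dd k.1.1.1 k.1.2.1 ≤ R ∧ k.2 ∈ C.dm k.1.1 k.1.2} := by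
  obtain ⟨K, h1, h2, h3⟩ := C.unif_cpt H hm R
  refine (((C.unif_jc_T H hm).1.mono h1).bdd h2).of_germ fun k hk => ?_
  obtain ⟨g, hg, h4⟩ := h3 _ _ hk.1 hk.2.1 hk.2.2.1
  refine ⟨_, h4 _ hk.2.2.2, ?_⟩
  filter_upwards [(C.isOpen_dm H hm hk.1 hk.2.1).mem_nhds hk.2.2.2] with z hz
  exact (C.Tf_fg H hm hk.1 hk.2.1 hg hz).1.symm

lemma jb_tm (R : ℝ) : JB (fun p : FF n N m × FF n N m => C.tm p.1 p.2)
    {k | C.Frm k.1.1 ∧ C.Frm k.1.2 ∧ C.dd k.1.1.1 k.1.2.1 ≤ R ∧ k.2 ∈ C.dm k.1.1 k.1.2} := by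
  obtain ⟨K, h1, h2, h3⟩ := C.unif_cpt H hm R
  refine (((C.unif_jc_T H hm).2.mono h1).bdd h2).of_germ fun k hk => ?_
  obtain ⟨g, hg, h4⟩ := h3 _ _ hk.1 hk.2.1 hk.2.2.1
  refine ⟨_, h4 _ hk.2.2.2, ?_⟩
  filter_upwards [(C.isOpen_dm H hm hk.1 hk.2.1).mem_nhds hk.2.2.2] with z hz
  exact (C.Tf_fg H hm hk.1 hk.2.1 hg hz).2.symm

lemma unif_jc_gs : JC (fun p : (FF n N m × FF n N m) × Euc n => C.gs p.1.1 p.2)
    {k | ‖k.1.2‖ = 1} :=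
  (C.jc_gs H).par (φ := fun p : (FF n N m × FF n N m) × Euc n => (p.1.1, p.2)) (by fun_prop)
    fun k hk => hk

lemma unif_jc_lf : JC (fun p : (FF n N m × FF n N m) × Euc n => C.lf p.1.1 p.1.2 p.2)
    {k | ‖k.1.2‖ = 1 ∧ (k.1.1, C.gs k.1.1.1 k.1.2 k.2) ∈ C.unifDom m} :=
  (((C.unif_jc_T H hm).1.par (φ := fun p : (FF n N m × FF n N m) × Euc n => p.1)
    (K₁ := {k | (k.1.1, k.2) ∈ C.unifDom m}) (by fun_prop) fun k hk => hk).comp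
    ((C.unif_jc_gs H hm).mono fun k hk => hk.1) fun k hk => hk.2).smooth_comp
    (φ := fun w : ZZ m => w.1) fun _ _ => contDiffAt_fst

lemma jc_lf : JC (fun p : (FF n N m × FF n N m) × Euc n => C.lf p.1.1 p.1.2 p.2)
    {k | C.Frm k.1.1.1 ∧ C.Frm k.1.1.2 ∧ C.Fw k.1.1.1 k.1.2 ∧
      C.gs k.1.1.1 k.1.2 k.2 ∈ C.dm k.1.1.1 k.1.1.2} :=
  (C.unif_jc_lf H hm).mono fun k hk => ⟨hk.2.2.1.1, C.unif_mem H hm hk.1 hk.2.1 hk.2.2.2⟩

/-- `norm_iteratedFDeriv_comp_le` or compactness again -/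
lemma jb_lf (R : ℝ) : JB (fun p : (FF n N m × FF n N m) × Euc n => C.lf p.1.1 p.1.2 p.2)
    {k | C.Frm k.1.1.1 ∧ C.Frm k.1.1.2 ∧ C.dd k.1.1.1.1 k.1.1.2.1 ≤ R ∧ C.Fw k.1.1.1 k.1.2 ∧
      C.gs k.1.1.1 k.1.2 k.2 ∈ C.dm k.1.1.1 k.1.1.2} := by
  obtain ⟨K, h1, h2, h3⟩ := C.unif_cpt H hm R
  have hc := ((continuousOn_fst.fst).prodMk
    (C.unif_jc_gs H hm).continuousOn).preimage_isClosed_of_isClosed
    (isClosed_eq (by fun_prop) continuous_const) h2.isClosed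
  have hK := ((h2.prod (isCompact_sphere (0 : Euc n) 1)).image
    (f := fun w => ((w.1.1, w.2), w.1.2.1)) (by fun_prop)).of_isClosed_subset hc fun k hk =>
      ⟨(_, k.1.2), ⟨hk.2, mem_sphere_zero_iff_norm.2 hk.1⟩, rfl⟩
  refine (((C.unif_jc_lf H hm).mono fun k hk => ⟨hk.1, h1 hk.2⟩).bdd hK).of_germ fun k hk => ?_
  obtain ⟨hf, hf', hR, hF, hz⟩ := hk
  obtain ⟨g, hg, h4⟩ := h3 _ _ hf hf' hR
  have h0 := bas_ne0 hF.1
  have e := C.gs_fg H hf hg h0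
  refine ⟨((fg g k.1.1.1, fg g k.1.1.2), C.act g k.1.2), ⟨C.norm_act H.a_pos hg h0, ?_⟩, ?_⟩
  · show ((fg g k.1.1.1, fg g k.1.1.2), C.gs (fg g k.1.1.1) (C.act g k.1.2) k.2) ∈ K
    rw [e]
    exact h4 _ hz
  · have hgs : Continuous (C.gs k.1.1.1 k.1.2) :=
      continuous_id.prodMk (C.contDiff_pq H h0 _).continuous
    filter_upwards [hgs.continuousAt.preimage_mem_nhds ((C.isOpen_dm H hm hf hf').mem_nhds hz)]
      with q hq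
    simp only [lf, e, (C.Tf_fg H hm hf hf' hg hq).1]

end Crest.Agent.N221.Cov
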