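import Crest.Agent.N221.Ch.Prd

/-! Row 221, block Ch: uniform balls in the domains of the transition maps. -/

set_option autoImplicit false
set_option linter.unusedSectionVars false
set_option linter.unusedVariables false

open MeasureTheory Set Filter Topology Metric
open scoped ContDiff RealInnerProductSpace ENNReal
open Crest.GeometryTopology.Submanifold
open Crest.Agent.R241.DDefs Crest.Agent.R241.D2
open Crest.Agent.R208.J Crest.Agent.R208.L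

noncomputable section

namespace Crest.Agent.N221.Cov

variable {n N m : ℕ} {a : ℝ} {S : Set (Euc N)} {G : Geo n N (-(a ^ 2)) S} (C : Cov G)
variable {f f' f'' : FF n N m} {z z' : ZZ m} {x y y' ξ η : Euc n} {v u u' : Euc N} {q q' : Euc m}
  {g : Euc n → Euc n} {s t : ℝ}
variable (H : Hyp n N a S) (hm : m + 1 = n)
include H hm

/-- uniform balls in the domains of the transition maps -/
lemma dm_ball0 (R : ℝ) {ρ : ℝ} (hρ : ρ < C.rr m) : ∃ r > 0, ∀ (f f' : FF n N m) (z : ZZ m),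
    C.Frm f → C.Frm f' → C.dd f.1 f'.1 ≤ R → z ∈ C.dm f f' → ‖z‖ ≤ ρ → ‖C.Tf f f' z‖ ≤ ρ →
    ball z r ⊆ C.dm f f' := by
  obtain ⟨K, hK, cK, h⟩ := C.unif_cpt H hm (m := m) R
  have c : ContinuousOn (fun k : (FF n N m × FF n N m) × ZZ m => max ‖C.Tf k.1.1 k.1.2 k.2‖ ‖k.2‖) K :=
    ((C.unif_jc_T H hm (m := m)).1.continuousOn.mono hK).norm.sup continuous_snd.norm.continuousOn
  have c' : IsCompact (K ∩ (fun k => max ‖C.Tf k.1.1 k.1.2 k.2‖ ‖k.2‖) ⁻¹' Iic ρ) :=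
    cK.of_isClosed_subset (c.preimage_isClosed_of_isClosed cK.isClosed isClosed_Iic) inter_subset_left
  obtain ⟨r, r0, hr⟩ := c'.exists_thickening_subset_open (isOpen_interior (s := {k | C.Frm k.1.1 →
      C.Frm k.1.2 → k.2 ∈ C.dm k.1.1 k.1.2})) fun k hk => by
    obtain ⟨h1, h2, h3, w, h4, h5⟩ := hK hk.1
    obtain ⟨h6, h7⟩ := max_le_iff.1 (show max ‖C.Tf k.1.1 k.1.2 k.2‖ ‖k.2‖ ≤ ρ from hk.2)
    rw [C.Tf_eq H hm h2 h4 h5] at h6
    exact mem_interior_iff_mem_nhds.2 (C.ev_dm H hm h1 h2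
      (C.mem_dm H hm h2 (h7.trans_lt hρ) (h6.trans_lt hρ) h5).1)
  refine ⟨r, r0, fun f f' z hf hf' hd hz h1 h2 w hw => ?_⟩
  obtain ⟨g, hg, hz'⟩ := h f f' hf hf' hd
  rw [← C.dm_fg H hm hf hf' hg]
  have e : max ‖C.Tf (fg g f) (fg g f') z‖ ‖z‖ ≤ ρ :=
    max_le (by rwa [(C.Tf_fg H hm hf hf' hg hz).1]) h1
  exact interior_subset (hr (a := ((fg g f, fg g f'), w)) (mem_thickening_iff.2
    ⟨((fg g f, fg g f'), z), ⟨hz' z hz, e⟩, by rwa [Prod.dist_eq, dist_self, max_eq_right dist_nonneg]⟩))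
    (hf.fg C hg) (hf'.fg C hg)

/-- the same with Lipschitz bounds -/
lemma dm_ball (R : ℝ) {ρ : ℝ} (hρ : ρ < C.rr m) : ∃ r L : ℝ, 0 < r ∧ 1 ≤ L ∧
    ∀ (f f' : FF n N m) (z : ZZ m), C.Frm f → C.Frm f' → C.dd f.1 f'.1 ≤ R → z ∈ C.dm f f' →
    ‖z‖ ≤ ρ → ‖C.Tf f f' z‖ ≤ ρ → ball z r ⊆ C.dm f f' ∧ ∀ w ∈ ball z r, ∀ w' ∈ ball z r,
      ‖C.Tf f f' w - C.Tf f f' w'‖ ≤ L * ‖w - w'‖ ∧ |C.tm f f' w - C.tm f f' w'| ≤ L * ‖w - w'‖ := by
  obtain ⟨r, r0, h⟩ := C.dm_ball0 H hm R hρ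
  obtain ⟨B, hB⟩ := C.jb_Tf H hm (m := m) R 1
  obtain ⟨B', hB'⟩ := C.jb_tm H hm (m := m) R 1
  refine ⟨r, max 1 (max B B'), r0, le_max_left _ _, fun f f' z hf hf' hd hz h1 h2 => ?_⟩
  have k := h f f' z hf hf' hd hz h1 h2
  refine ⟨k, fun w hw w' hw' => ⟨?_, ?_⟩⟩
  · exact (convex_ball z r).norm_image_sub_le_of_norm_fderiv_le (𝕜 := ℝ)
      (fun y hy => (C.contDiffAt_Tf H hm hf hf' (k hy)).differentiableAt (by simp))
      (fun y hy => le_max_of_le_right (le_max_of_le_left (by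
        simpa using hB ((f, f'), y) ⟨hf, hf', hd, k hy⟩))) hw' hw
  · exact (convex_ball z r).norm_image_sub_le_of_norm_fderiv_le (𝕜 := ℝ)
      (fun y hy => (C.contDiffAt_tm H hm hf hf' (k hy)).differentiableAt (by simp))
      (fun y hy => le_max_of_le_right (le_max_of_le_right (by
        simpa using hB' ((f, f'), y) ⟨hf, hf', hd, k hy⟩))) hw' hw

end Crest.Agent.N221.Cov
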