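import Crest.Agent.N221.Ch.Unif
import Crest.Agent.N221.C.Two

/-! Row 221, block Ch: quantitative statements: size of the charts. -/

set_option autoImplicit false
set_option linter.unusedSectionVars false
set_option linter.unusedVariables false

open MeasureTheory Set Filter Topology Metric
open scoped ContDiff RealInnerProductSpace ENNReal
open Crest.GeometryTopology.Submanifold
open Crest.Agent.R241.DDefs Crest.Agent.R241.D2
open Crest.Agent.R208.J Crest.Agent.R208.L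

noncomputable section

namespace Crest.Agent.N221.Cov

variable {n N m : ℕ} {a : ℝ} {S : Set (Euc N)} {G : Geo n N (-(a ^ 2)) S} (C : Cov G)
variable {f f' f'' : FF n N m} {z z' : ZZ m} {x y y' ξ η : Euc n} {v u u' : Euc N} {q q' : Euc m}
  {g : Euc n → Euc n} {s t : ℝ}
/-- compactness with a constant -/
lemma unifK {E : Type} [NormedAddCommGroup E] {p : ℝ → FF n N m → E → Prop}
    (mono : ∀ K K' f e, K ≤ K' → p K f e → p K' f e)
    (hloc : ∀ f, C.Frm f → ∃ K, ∀ᶠ k : FF n N m × E in 𝓝 (f, 0), C.Frm k.1 → p K k.1 k.2) (D : ℝ) :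
    ∃ K r : ℝ, 0 < K ∧ 0 < r ∧ ∀ f e, C.Frm f → ‖f.1‖ ≤ D → ‖e‖ ≤ r → p K f e := by
  obtain ⟨K, r, hr, h⟩ := (C.isCompact_frm (m := m) D).induction_on
    (p := fun s => ∃ K r : ℝ, 0 < r ∧ ∀ f ∈ s, ∀ e, ‖e‖ ≤ r → C.Frm f → p K f e)
    ⟨0, 1, one_pos, fun _ h => h.elim⟩
    (fun s t hst ⟨K, r, hr, h⟩ => ⟨K, r, hr, fun f hf => h f (hst hf)⟩)
    (fun s t ⟨K, r, hr, h⟩ ⟨K', r', hr', h'⟩ => ⟨max K K', min r r', lt_min hr hr',
      fun f hf e he h1 => hf.elim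
        (fun hf => mono _ _ _ _ (le_max_left _ _) (h f hf e (he.trans (min_le_left _ _)) h1))
        fun hf => mono _ _ _ _ (le_max_right _ _) (h' f hf e (he.trans (min_le_right _ _)) h1)⟩)
    fun f hf => by
      obtain ⟨K, hK⟩ := hloc f hf.1
      rw [nhds_prod_eq, eventually_prod_iff] at hK
      obtain ⟨pa, h1, pb, h2, h3⟩ := hK
      obtain ⟨r, hr, h4⟩ := Metric.eventually_nhds_iff_ball.1 h2
      exact ⟨_, mem_nhdsWithin_of_mem_nhds h1, K, r / 2, half_pos hr, fun f' hf' e he =>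
        h3 hf' (h4 e (mem_ball_zero_iff.2 (by linarith)))⟩
  exact ⟨max K 1, r, by positivity, hr, fun f e h1 h2 h3 =>
    mono _ _ _ _ (le_max_left _ _) (h f ⟨h1, h2⟩ e h3 h1)⟩

variable (H : Hyp n N a S) (hm : m + 1 = n)
include H hm

lemma uv_near : ∃ K > 0, ∀ (f : FF n N m) (z : ZZ m), C.Frm f → ‖z‖ ≤ 2 * C.rr m →
    ‖C.uv f z - f.2.1‖ ≤ K * ‖z‖ := by
  obtain ⟨D, -, hD⟩ := C.exists_deck
  have hJ : JC (fun (p : FF n N m) x => C.uv p x)
      ({f : FF n N m | C.Frm f ∧ ‖f.1‖ ≤ D} ×ˢ closedBall 0 (2 * C.rr m)) :=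
    JC.of_smooth (T := fun k : FF n N m × ZZ m => C.uv k.1 k.2) fun k hk =>
      C.contDiffAt_uv H hk.1.1 (C.Dm_of_le H hm hk.1.1 (mem_closedBall_zero_iff.1 hk.2))
  obtain ⟨B, hB⟩ := ((C.isCompact_frm (m := m) D).prod
    (isCompact_closedBall (0 : ZZ m) (2 * C.rr m))).exists_bound_of_continuousOn
    hJ.continuousOn_fderiv
  refine ⟨max B 1, by positivity, fun f z hf hz => ?_⟩
  obtain ⟨g, hg, hgD⟩ := hD f.1
  have := (convex_closedBall (0 : ZZ m) (2 * C.rr m)).norm_image_sub_le_of_norm_fderiv_le (𝕜 := ℝ)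
    (f := C.uv (fg g f)) (C := max B 1)
    (fun w hw => (hJ.sm (fg g f, w) ⟨⟨hf.fg C hg, hgD⟩, hw⟩).differentiableAt (by simp))
    (fun w hw => (hB (fg g f, w) ⟨⟨hf.fg C hg, hgD⟩, hw⟩).trans (le_max_left _ _))
    (mem_closedBall_self (by linarith [C.rr_pos H hm])) (mem_closedBall_zero_iff.2 hz)
  rwa [C.uv_fg hf hg, C.uv_zero H hf, sub_zero] at this

/-- vectors near the centre cross the transversal near the centre (intermediate values for
`t ↦ ⟪lg x (gd y u t), v⟫`, whose derivative is `≥ 1/2`; `eq_hy`, `uv_eq`) -/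
lemma near_chart : ∃ K δ : ℝ, 0 < K ∧ 0 < δ ∧ ∀ (f : FF n N m) (y : Euc n) (u : Euc N) (ε : ℝ),
    C.Frm f → C.Un y u → ε ≤ δ → C.dd f.1 y ≤ ε → ‖u - f.2.1‖ ≤ ε →
    ∃ (z : ZZ m) (t : ℝ), ‖z‖ ≤ K * ε ∧ |t| ≤ K * ε ∧ C.hy f z.1 = C.gd y u t ∧
      C.uv f z = C.vel y u t := by
  obtain ⟨D, -, hD⟩ := C.exists_deck
  obtain ⟨K, r, hK, hr, h⟩ := C.unifK (E := Euc n × Euc N) (p := fun K (f : FF n N m) e =>
      C.Un (f.1 + e.1) (f.2.1 + e.2) → ∃ (z : ZZ m) (t : ℝ), ‖z‖ ≤ K * ‖e‖ ∧ |t| ≤ K * ‖e‖ ∧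
        C.hy f z.1 = C.gd (f.1 + e.1) (f.2.1 + e.2) t ∧ C.uv f z = C.vel (f.1 + e.1) (f.2.1 + e.2) t)
    (fun K K' f e hK h hu => by
      obtain ⟨z, t, h1, h2, h3⟩ := h hu
      have := mul_le_mul_of_nonneg_right hK (norm_nonneg e)
      exact ⟨z, t, h1.trans this, h2.trans this, h3⟩)
    (fun f hf => by
      have h0 : ‖(0 : ZZ m)‖ < 2 * C.rr m := by simpa using C.rr_pos H hm
      obtain ⟨τ, Z, t1, z1, t2, z2, hev⟩ := C.loc_cross H hm (t := 0) (z := 0) hf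
        (C.Dm_of_le H hm hf h0.le) hf.un (by rw [C.gd_zero]; exact C.hy_zero f)
        (by rw [C.vel_zero, C.uv_zero H hf])
      obtain ⟨K, O, hO, hL⟩ := ((z1.prodMk t1).of_le (m := 1) (by simp)).exists_lipschitzOnWith
      have c1 : Tendsto (fun k : FF n N m × Euc n × Euc N => (k.1, k.1.1 + k.2.1, k.1.2.1 + k.2.2))
          (𝓝 (f, 0)) (𝓝 (f, f.1, f.2.1)) := Continuous.tendsto' (by fun_prop) _ _ (by simp)
      have c2 : Tendsto (fun k : FF n N m × Euc n × Euc N => (k.1, k.1.1, k.1.2.1))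
          (𝓝 (f, 0)) (𝓝 (f, f.1, f.2.1)) := Continuous.tendsto' (by fun_prop) _ _ rfl
      refine ⟨K, ?_⟩
      filter_upwards [c1.eventually hO, c2.eventually hO, c1.eventually hev, c2.eventually hev,
        c2.eventually (z1.continuousAt.norm.eventually (gt_mem_nhds (a := 2 * C.rr m)
          (by simpa only [z2] using h0)))] with k k1 k2 k3 k4 k5 hk hu
      obtain ⟨g1, g2⟩ := C.ge_of_gd H hk.un (k4 hk hk.un).1 (k4 hk hk.un).2
      have g3 : Z (k.1, k.1.1, k.1.2.1) = 0 := (C.rad H hm).inj _ hk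
        (mem_closedBall_zero_iff.2 k5.le) (mem_closedBall_zero_iff.2 h0.le)
        (g1.trans (C.ge_zero H hk).symm)
      have g4 : τ (k.1, k.1.1, k.1.2.1) = 0 := by
        rw [← g2, g3, Prod.fst_zero, C.hy_zero, sub_self]
      have g5 := hL.norm_sub_le k1 k2
      simp only [g3, g4, Prod.mk_sub_mk, sub_zero, sub_self, add_sub_cancel_left, Prod.norm_mk,
        norm_zero, max_le_iff] at g5
      rw [max_eq_right (by positivity), ← Prod.norm_def] at g5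
      exact ⟨_, _, g5.1, g5.2, k3 hk hu⟩) D
  refine ⟨K, r, hK, hr, fun f y u ε hf hu hε h1 h2 => ?_⟩
  obtain ⟨g, hg, hgD⟩ := hD f.1
  have he : ‖(g y - g f.1, u - f.2.1)‖ ≤ ε := max_le ((C.norm_sub_le_dd H.a_pos.le _ _).trans
    (by rwa [hg.dd_eq C, C.dd_comm])) h2
  have e1 : (fg g f).1 + (g y - g f.1) = g y := add_sub_cancel _ _
  have e2 : (fg g f).2.1 + (u - f.2.1) = u := add_sub_cancel _ _
  have := h (fg g f) _ (hf.fg C hg) hgD (he.trans hε)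
  simp only [e1, e2] at this
  obtain ⟨z, t, k1, k2, k3, k4⟩ := this ((Deck.un C hg).2 hu)
  have := mul_le_mul_of_nonneg_left he hK.le
  rw [C.hy_fg hf hg, hg.gd_eq C hu.mem] at k3
  rw [C.uv_fg hf hg, hg.vel_eq C] at k4
  exact ⟨z, t, k1.trans this, k2.trans this, hg.bij.1 k3, k4⟩

/-- the same from the closeness of two positions to a vector near the centre -/
lemma near2 : ∃ K δ : ℝ, 0 < K ∧ 0 < δ ∧ ∀ (f : FF n N m) (y y' : Euc n) (u u' : Euc N)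
    (ρ ε e : ℝ), (e = 1 ∨ e = -1) → C.Frm f → C.Un y u → C.Un y' u' → ρ ≤ δ → ε ≤ δ →
    C.dd y y' ≤ ρ → C.dd (C.gd y u e) (C.gd y' u' e) ≤ ρ → C.dd f.1 y ≤ ε → ‖u - f.2.1‖ ≤ ε →
    ∃ (z : ZZ m) (t : ℝ), ‖z‖ ≤ K * (ρ + ε) ∧ |t| ≤ K * (ρ + ε) ∧ C.hy f z.1 = C.gd y' u' t ∧
      C.uv f z = C.vel y' u' t := by
  obtain ⟨K, δ, hK, hδ, h⟩ := C.near_chart H hm
  obtain ⟨L, hL, hl⟩ := C.up_close H
  refine ⟨K * (2 * L + 1), δ / (2 * (2 * L + 1)), by positivity, by positivity,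
    fun f y y' u u' ρ ε e he hf hu hu' h1 h2 h3 h4 h5 h6 => ?_⟩
  have p1 := (C.dd_nonneg _ _).trans h3
  have p2 := (C.dd_nonneg _ _).trans h5
  have k1 := (norm_snd_le ((C.pr y, u) - (C.pr y', u'))).trans
    ((dist_eq_norm _ _).symm.trans_le (hl y u y' u' hu hu' e he))
  have k2 : ‖u' - f.2.1‖ ≤ ‖u - u'‖ + ‖u - f.2.1‖ := by
    rw [norm_sub_rev u u']; exact norm_sub_le_norm_sub_add_norm_sub _ _ _
  have k3 := C.dd_triangle H.a_pos.le f.1 y y'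
  have k4 : ‖u - u'‖ ≤ L * (ρ + ρ) := k1.trans (by gcongr)
  rw [le_div_iff₀ (by positivity)] at h1 h2
  simpa only [mul_assoc] using h f y' u' ((2 * L + 1) * (ρ + ε)) hf hu' (by nlinarith)
    (by nlinarith) (by nlinarith)

/-- bounded times, nearby frames -/
lemma step (R : ℝ) : ∃ K δ : ℝ, 0 < K ∧ 0 < δ ∧ ∀ (f f' : FF n N m) (z : ZZ m) (t ε : ℝ),
    C.Frm f → C.Frm f' → |t| ≤ R → ε ≤ δ → ‖z‖ ≤ ε → C.dd f'.1 (C.gd f.1 f.2.1 t) ≤ ε →
    ‖C.vel f.1 f.2.1 t - f'.2.1‖ ≤ ε →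
    z ∈ C.dm f f' ∧ ‖C.Tf f f' z‖ ≤ K * ε ∧ |C.tm f f' z - t| ≤ K * ε := by
  obtain ⟨K, δ, hK, hδ, h⟩ := C.near2 H hm
  obtain ⟨K1, p1, h1⟩ := C.uv_near H hm
  obtain ⟨K2, p2, h2⟩ := C.gd_close H (|R| + 1)
  have hr := C.rr_pos H hm
  set A := K2 * (1 + K1) + 1 with hA
  have pA : 1 ≤ A := by rw [hA]; linarith [mul_pos p2 (add_pos one_pos p1)]
  refine ⟨K * A, min (min 1 (δ / A)) (C.rr m / (2 * (K * A + 1))), by positivity, by positivity,
    fun f f' z t ε hf hf' ht hε hz k1 k2 => ?_⟩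
  simp only [le_min_iff] at hε
  obtain ⟨⟨e1, e2⟩, e3⟩ := hε
  rw [le_div_iff₀ (by positivity)] at e2 e3
  have e0 := (norm_nonneg _).trans hz
  have e4 : 0 ≤ K * A * ε := by positivity
  have hz' : ‖z‖ < C.rr m := by nlinarith
  have hu := C.un_uv H hf (C.Dm_lt H hm hf hz')
  have hq : C.dd f.1 (C.hy f z.1) ≤ ε := by rw [C.dd_hy hf]; exact (norm_fst_le z).trans hz
  have cl : ∀ s, |s| ≤ |R| + 1 →
      C.dd (C.gd f.1 f.2.1 s) (C.gd (C.hy f z.1) (C.uv f z) s) ≤ K2 * (1 + K1) * ε := fun s hs => by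
    refine (h2 _ _ _ _ hf.un hu (by linarith [abs_nonneg R]) s hs).trans ?_
    rw [norm_sub_rev, mul_assoc]
    have := (h1 f z hf (by linarith)).trans (mul_le_mul_of_nonneg_left hz p1.le)
    exact mul_le_mul_of_nonneg_left (by linarith) p2.le
  have hR := ht.trans (le_abs_self R)
  obtain ⟨w, s, w1, w2, w3, w4⟩ := h f' _ _ _ _ (K2 * (1 + K1) * ε) ε 1 (.inl rfl) hf' (hf.un.vel C t)
    (hu.vel C t) (by nlinarith) (by nlinarith) (cl t (by linarith))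
    (by rw [C.gd_add hf.un.mem, C.gd_add hu.mem]
        exact cl _ ((abs_add_le _ _).trans (by rw [abs_one]; linarith))) k1 k2
  rw [show K * (K2 * (1 + K1) * ε + ε) = K * A * ε by rw [hA]; ring] at w1 w2
  obtain ⟨g1, g2, g3⟩ := C.Tf_of_gd H hm hf hf' hz' (z' := w) (by nlinarith)
    (w3.trans (C.gd_add hu.mem t s)) (w4.trans (C.vel_add hu.mem t s))
  exact ⟨g1, g2 ▸ w1, by rwa [g3, add_sub_cancel_left]⟩

/-- the plaque of the centre leaf (`asy_tail`, `abs_bus_sub_le`, `up_close`, `near_chart`; `step`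
for `t ≤ 1`), with a perturbed start `(y, u)` and a perturbed end frame -/
lemma tail_chart : ∃ K δ : ℝ, 0 < K ∧ 0 < δ ∧ ∀ (f' : FF n N m) (y y' : Euc n) (u : Euc N)
    (t ε ε' : ℝ), C.Frm f' → C.Un y u → 1 ≤ t → ε ≤ δ → ε' ≤ δ → C.dd y y' ≤ ε →
    C.dd f'.1 (C.gd y u t) ≤ ε' → ‖C.vel y u t - f'.2.1‖ ≤ ε' →
    ∃ (z : ZZ m) (s : ℝ), ‖z‖ ≤ K * (ε * Real.exp (-(a * t)) + ε') ∧ |s - t| ≤ K * (ε + ε') ∧
      C.hy f' z.1 = C.gd y' (C.asy y u y') s ∧ C.uv f' z = C.vel y' (C.asy y u y') s := by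
  obtain ⟨K, δ, hK, hδ, h⟩ := C.near2 H hm
  have ha := H.a_pos
  set A := 2 * Real.exp a * Real.exp a + 1 with hA
  have pA : 1 ≤ A := by rw [hA]; linarith [mul_pos (mul_pos two_pos (Real.exp_pos a)) (Real.exp_pos a)]
  refine ⟨K * A + 1, min 1 (δ / A), by positivity, by positivity,
    fun f' y y' u t ε ε' hf hu ht hε hε' k1 k2 k3 => ?_⟩
  simp only [le_min_iff] at hε hε'
  obtain ⟨e1, e2⟩ := hε
  obtain ⟨e3, e4⟩ := hε'
  rw [le_div_iff₀ (by positivity)] at e2 e4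
  have e0 := (C.dd_nonneg _ _).trans k1
  have e0' := (C.dd_nonneg _ _).trans k2
  have hw := C.un_asy ha hu y'
  have hβ : |C.bus y u y'| ≤ ε := by
    have := C.abs_bus_sub_le ha hu y' (C.gd y u 0)
    rw [C.bus_gd ha hu, C.gd_zero, neg_zero, sub_zero, C.dd_comm] at this
    exact this.trans k1
  have x1 : Real.exp (-(a * t)) ≤ 1 := Real.exp_le_one_iff.2 (by nlinarith)
  have x0 := Real.exp_pos (-(a * t))
  have cl : ∀ s, t ≤ s → C.dd (C.gd y u s) (C.gd y' (C.asy y u y') (s + C.bus y u y')) ≤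
      A * (ε * Real.exp (-(a * t))) := fun s hs => by
    have b1 := abs_le.1 hβ
    have := C.asy_tail ha hu y' (s := s + C.bus y u y') (by linarith)
    rw [add_sub_cancel_right, C.dd_comm] at this
    refine this.trans ?_
    have b2 : Real.exp (-(a * (s + C.bus y u y'))) ≤ Real.exp a * Real.exp (-(a * t)) := by
      rw [← Real.exp_add]; exact Real.exp_le_exp.2 (by nlinarith)
    have b3 : Real.sinh (a * C.dd y y') ≤ a * Real.exp a * ε :=
      (Tw.sinh_le ha (C.dd_nonneg _ _) (k1.trans e1)).trans (by gcongr)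
    calc _ ≤ 2 / a * (Real.exp a * Real.exp (-(a * t))) * (a * Real.exp a * ε) := by
          gcongr; exact Real.sinh_nonneg_iff.2 (mul_nonneg ha.le (C.dd_nonneg _ _))
      _ = 2 * Real.exp a * Real.exp a * (ε * Real.exp (-(a * t))) := by field_simp
      _ ≤ _ := by gcongr; linarith
  have x2 : ε * Real.exp (-(a * t)) ≤ ε := mul_le_of_le_one_right e0 x1
  have x3 : 0 ≤ ε * Real.exp (-(a * t)) := by positivity
  obtain ⟨w, s, w1, w2, w3, w4⟩ := h f' _ _ _ _ (A * (ε * Real.exp (-(a * t)))) ε' 1 (.inl rfl) hf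
    (hu.vel C t) (hw.vel C (t + C.bus y u y')) (by nlinarith) (by nlinarith) (cl t le_rfl)
    (by rw [C.gd_add hu.mem, C.gd_add hw.mem, add_right_comm]; exact cl _ (by linarith)) k2 k3
  have x4 : K * (A * (ε * Real.exp (-(a * t))) + ε') ≤ K * A * (ε * Real.exp (-(a * t)) + ε') := by
    rw [mul_assoc]; exact mul_le_mul_of_nonneg_left (by nlinarith) hK.le
  refine ⟨w, t + C.bus y u y' + s, w1.trans (x4.trans (by nlinarith)), ?_,
    w3.trans (C.gd_add hw.mem _ s), w4.trans (C.vel_add hw.mem _ s)⟩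
  rw [add_assoc, add_sub_cancel_left]
  have x5 : K * A * (ε * Real.exp (-(a * t)) + ε') ≤ K * A * (ε + ε') := by gcongr
  exact (abs_add_le _ _).trans (by nlinarith)

/-- a geodesic that is near the centre at both ends is near the centre in between (`step` for
`t ≤ 2`; else `dd_tm`, `tm ≥ 0` (otherwise `seg_close` for `(y, -u)` at time `1` contradicts
`gd_close`), `seg_close`, `seg_up`, `near_chart`) -/
lemma box_mid : ∃ K δ : ℝ, 0 < K ∧ 0 < δ ∧ ∀ (f f' f'' : FF n N m) (z : ZZ m) (s t ε : ℝ),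
    C.Frm f → C.Frm f' → C.Frm f'' → C.Ov f f' s → C.Ov f f'' t → 0 ≤ s → s ≤ t → ε ≤ δ →
    z ∈ C.dm f f'' → ‖z‖ ≤ ε → ‖C.Tf f f'' z‖ ≤ ε →
    z ∈ C.dm f f' ∧ ‖C.Tf f f' z‖ ≤ K * ε ∧ |C.tm f f' z - s| ≤ K * ε := by
  obtain ⟨K, δ, hK, hδ, h⟩ := C.near2 H hm
  obtain ⟨K0, δ0, p0, d0, h0⟩ := C.step H hm 2
  obtain ⟨K1, p1, h1⟩ := C.uv_near H hm
  obtain ⟨K2, p2, h2⟩ := C.gd_close H 1
  have hr := C.rr_pos H hm
  have pA : 0 < K2 * (1 + K1) := by positivity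
  refine ⟨K0 + 10 * K, min (min (δ / 10) δ0) (min (1 / (K2 * (1 + K1) + 10))
    (C.rr m / (2 * (10 * K + 1)))), by positivity, by positivity,
    fun f f' f'' z s t ε hf hf' hf'' o1 o2 hs hst hε hz k1 k2 => ?_⟩
  simp only [le_min_iff] at hε
  obtain ⟨⟨e1, e2⟩, e3, e4⟩ := hε
  rw [le_div_iff₀ (by positivity)] at e1 e3 e4
  have e0 := (norm_nonneg _).trans k1
  have e5 : 0 ≤ K * ε := by positivity
  have e6 : 0 ≤ K0 * ε := by positivity
  rcases le_or_gt t 2 with ht | ht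
  · obtain ⟨g1, g2, g3⟩ := h0 f f' z s ε hf hf' (abs_le.2 ⟨by linarith, by linarith⟩) e2 k1
      (by rwa [← o1.1, C.dd_self]) (by rwa [← o1.2, sub_self, norm_zero])
    exact ⟨g1, by linarith, by linarith⟩
  have hu := C.un_uv H hf (C.Dm_lt H hm hf hz.1)
  have hq : C.dd f.1 (C.hy f z.1) ≤ ε := by rw [C.dd_hy hf]; exact (norm_fst_le z).trans k1
  have hq' : C.dd (C.gd f.1 f.2.1 t) (C.gd (C.hy f z.1) (C.uv f z) (C.tm f f'' z)) ≤ ε := by
    rw [← o2.1, ← (C.hy_Tf H hm hf hf'' hz).1, C.dd_hy hf'']; exact (norm_fst_le _).trans k2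
  have hτ : 0 ≤ C.tm f f'' z := not_lt.1 fun hτ => by
    have b1 := (C.seg_close H hf.un hu.neg (t := t) (t' := -C.tm f f'' z) (by linarith) (by linarith) hq
      (by rwa [C.gd_neg, neg_neg])).2 1 ⟨zero_le_one, by linarith⟩
    have b2 := h2 _ _ _ _ hf.un hu (by nlinarith) (-1) (by simp)
    have b3 := (h1 f z hf (by linarith [hz.1])).trans (mul_le_mul_of_nonneg_left k1 p1.le)
    have b4 := C.dd_triangle H.a_pos.le (C.gd f.1 f.2.1 1) (C.gd (C.hy f z.1) (C.uv f z) (-1))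
      (C.gd f.1 f.2.1 (-1))
    rw [C.gd_neg] at b1
    rw [norm_sub_rev, C.dd_comm] at b2
    rw [hf.un.dd_gd C, show |(-1 : ℝ) - 1| = 2 by norm_num] at b4
    have b5 : K2 * (C.dd f.1 (C.hy f z.1) + ‖C.uv f z - f.2.1‖) ≤ K2 * ((1 + K1) * ε) :=
      mul_le_mul_of_nonneg_left (by linarith) p2.le
    nlinarith
  have cl := (C.seg_close H hf.un hu (by linarith) hτ hq hq').2
  obtain ⟨e, he, he'⟩ : ∃ e : ℝ, (e = 1 ∨ e = -1) ∧ s + e ∈ Icc 0 t := by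
    rcases le_total s 1 with h | h
    exacts [⟨1, .inl rfl, by linarith, by linarith⟩, ⟨-1, .inr rfl, by linarith, by linarith⟩]
  obtain ⟨w, σ, w1, w2, w3, w4⟩ := h f' _ _ _ _ (10 * ε) 0 e he hf' (hf.un.vel C s) (hu.vel C s)
    (by linarith) hδ.le (cl s ⟨hs, hst⟩) (by rw [C.gd_add hf.un.mem, C.gd_add hu.mem]; exact cl _ he')
    (by rw [← o1.1, C.dd_self]) (by rw [← o1.2, sub_self, norm_zero])
  obtain ⟨g1, g2, g3⟩ := C.Tf_of_gd H hm hf hf' hz.1 (z' := w) (by nlinarith)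
    (w3.trans (C.gd_add hu.mem s σ)) (w4.trans (C.vel_add hu.mem s σ))
  exact ⟨g1, by rw [g2]; nlinarith, by rw [g3, add_sub_cancel_left]; nlinarith⟩

end Crest.Agent.N221.Cov
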