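import Crest.Agent.N221.Ch.Crs
import Crest.Agent.N221.X.Loc

/-! Row 221, block Ch: if `E^u` is smooth in the charts then `U` is smooth. -/

set_option autoImplicit false
set_option linter.unusedSectionVars false
set_option linter.unusedVariables false

open MeasureTheory Set Filter Topology Metric
open scoped ContDiff RealInnerProductSpace ENNReal
open Crest.GeometryTopology.Submanifold
open Crest.Agent.R241.DDefs Crest.Agent.R241.D2
open Crest.Agent.R208.J Crest.Agent.R208.L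

noncomputable section

namespace Crest.Agent.N221.Exit

theorem contDiffAt_clm {D E F : Type*} [NormedAddCommGroup D] [NormedSpace ℝ D]
    [NormedAddCommGroup E] [NormedSpace ℝ E] [FiniteDimensional ℝ E]
    [NormedAddCommGroup F] [NormedSpace ℝ F] {m : WithTop ℕ∞} {f : D → E →L[ℝ] F} {x : D}
    (h : ∀ y, ContDiffAt ℝ m (fun x => f x y) x) : ContDiffAt ℝ m f x := by
  let d := Module.finrank ℝ E
  have hd : d = Module.finrank ℝ (Fin d → ℝ) := (Module.finrank_fin_fun ℝ).symm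
  let e₁ := ContinuousLinearEquiv.ofFinrankEq hd
  let e₂ := (e₁.arrowCongr (1 : F ≃L[ℝ] F)).trans (ContinuousLinearEquiv.piRing (Fin d))
  rw [← Function.id_comp f, ← e₂.symm_comp_self]
  exact e₂.symm.contDiff.contDiffAt.comp x (contDiffAt_pi.mpr fun i => h _)

variable {n N m : ℕ} {a : ℝ} {S : Set (Euc N)} {G : Geo n N (-(a ^ 2)) S}

/-- `U` from its compression by `J` -/
lemma U_eq_J (h : IsU G (U G)) {q : TT N} (hq : q ∈ US G) {J B : Euc m →L[ℝ] Euc N}
    (hB : B = Pv G q ∘L J) (hi : Function.Injective B) (hs : ∀ w ∈ Vp G q, ∃ e, B e = w) :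
    U G q = B ∘L gi B ∘L (J.adjoint ∘L U G q ∘L J) ∘L gi B ∘L B.adjoint := by
  have h1 : ∀ w, B.adjoint w = J.adjoint (Pv G q w) := fun w => ext_inner_right ℝ fun e => by
    rw [ContinuousLinearMap.adjoint_inner_left, ContinuousLinearMap.adjoint_inner_left,
      inner_Pv hq.1, hB, ContinuousLinearMap.comp_apply]
  ext1 w
  obtain ⟨e0, h0⟩ := hs _ (Pv_mem hq.1 hq.2 w)
  obtain ⟨e1, h2⟩ := hs _ (h.mem hq w)
  have h3 : B.adjoint w = B.adjoint (B e0) := by rw [h0, h1, h1, Pv_Pv hq]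
  have h4 : U G q (J e0) = B e1 := by
    rw [h2, ← h.comp_Pv q hq w, ← h0, hB, ContinuousLinearMap.comp_apply, h.comp_Pv q hq]
  have h5 : J.adjoint (B e1) = B.adjoint (B e1) := by rw [h1, h2, h.Pv_comp hq]
  simp only [ContinuousLinearMap.comp_apply]
  rw [h3, gi_gram hi, h4, h5, gi_gram hi, h2]

/-- the linearised flow on the unstable space -/
def Dv (G : Geo n N (-(a ^ 2)) S) (q : TT N) (t : ℝ) : Euc N →L[ℝ] TT N :=
  fderiv ℝ (fl G) (q, t) ∘L ContinuousLinearMap.inl ℝ (TT N) ℝ ∘L H.vu G q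

/-- the invertible extension of `Ju` -/
def Jx (G : Geo n N (-(a ^ 2)) S) (q : TT N) (t : ℝ) : Op N :=
  PTi G q t ∘L ContinuousLinearMap.fst ℝ _ _ ∘L Dv G q t +
    (ContinuousLinearMap.id ℝ (Euc N) - Pv G q)

lemma isUnit_Jx (H : Hyp n N a S) {q : TT N} (hq : q ∈ US G) (t : ℝ) : IsUnit (Jx G q t) :=
  ContinuousLinearMap.isUnit_iff_isUnit_toLinearMap.2 ((LinearMap.isUnit_iff_isUnit_det _).2
    ((det_Ju H.cpt (N221.H.isU H) hq t).trans_ne (Real.exp_ne_zero _)).isUnit)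

lemma U_fl (H : Hyp n N a S) {q : TT N} (hq : q ∈ US G) (t : ℝ) :
    U G (fl G (q, t)) = (ContinuousLinearMap.snd ℝ _ _ ∘L Dv G q t -
      dP G (fl G (q, t)) ∘L ContinuousLinearMap.fst ℝ _ _ ∘L Dv G q t) ∘L
        Ring.inverse (Jx G q t) ∘L PTi G q t := by
  have hU := N221.H.isU (G := G) H
  have h1 : ∀ j, U G (fl G (q, t)) (PT G q t (Jx G q t j)) =
      (Dv G q t j).2 - dP G (fl G (q, t)) (Dv G q t j).1 := fun j => by
    have e1 : Dv G q t j = _ := N221.H.Dfl_vu H hq t j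
    have e2 : Jx G q t j = Ju G q t j + (j - Pv G q j) := rfl
    rw [e1, N221.H.vu_apply, add_sub_cancel_left, e2, map_add, map_add,
      ← hU.comp_Pv _ (fl_US hq t) (PT G q t (j - _)), Pv_PT hq.1, map_sub, Pv_Pv hq, sub_self,
      map_zero, map_zero, add_zero]
  ext1 w
  have e3 : Jx G q t (Ring.inverse (Jx G q t) (PTi G q t w)) = PTi G q t w :=
    congrArg (fun A : Op N => A (PTi G q t w)) (Ring.mul_inverse_cancel _ (isUnit_Jx H hq t))
  have := h1 (Ring.inverse (Jx G q t) (PTi G q t w))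
  rw [e3, PT_PTi hq.1] at this
  exact this

end Crest.Agent.N221.Exit

namespace Crest.Agent.N221.Cov

variable {n N m : ℕ} {a : ℝ} {S : Set (Euc N)} {G : Geo n N (-(a ^ 2)) S} (C : Cov G)
variable {f f' f'' : FF n N m} {z z' : ZZ m} {x y y' ξ η : Euc n} {v u u' : Euc N} {q q' : Euc m}
  {g : Euc n → Euc n} {s t : ℝ}
variable (H : Hyp n N a S) (hm : m + 1 = n)
include H hm

/-- `inner_HH`: `B* U B` is smooth, `B = Pv J`, `U = B gi(B) (B* U B) gi(B) B*` -/
lemma contDiffAt_U_chart (hf : C.Frm f) (hz : z ∈ C.Dm f) (h : ContDiffAt ℝ ∞ (C.Su f) z) :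
    ContDiffAt ℝ ∞ (fun z => U G (C.pr (C.hy f z.1), C.uv f z)) z := by
  have hO := (C.isOpen_Dm H hf).mem_nhds hz
  set w : ZZ m → TT N := fun z => (C.pr (C.hy f z.1), C.uv f z) with hw
  set B : ZZ m → Euc m →L[ℝ] Euc N := fun z => Pv G (w z) ∘L C.Jh f z.1 with hB
  have c1 : ContDiffAt ℝ ∞ (C.uv f) z :=
    (C.contDiffAt_uv H hf hz).comp (f := fun z => (f, z)) z (contDiffAt_const.prodMk contDiffAt_id)
  have c2 : ContDiffAt ℝ ∞ w z :=
    (C.pr_smooth.comp ((C.contDiff_hy' f).comp contDiff_fst)).contDiffAt.prodMk c1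
  have c3 : ContDiffAt ℝ ∞ (fun z : ZZ m => C.Jh f z.1) z :=
    ((C.contDiff_Jh' f).comp contDiff_fst).contDiffAt
  have c4 : ContDiffAt ℝ ∞ B z := (contDiff_Pv.contDiffAt.comp z c2).clm_comp c3
  have hb : ∀ z ∈ C.Dm f, Function.Injective (B z) ∧ ∀ k ∈ Vp G (w z), ∃ e, B z e = k := by
    intro z hz
    have h1 : (C.ge f z).1 ≠ 0 := norm_ne_zero_iff.1 ((C.ge_GG H hf hz).1.trans_ne one_ne_zero)
    have h2 : C.Bs f (C.ge f z).1 z.1 = B z := by rw [Bs, C.W_ge H hf hz]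
    have h3 := C.uv_side H hf hz
    refine ⟨(injective_iff_map_eq_zero _).2 fun e he => ?_, fun k hk => ?_⟩
    · have := C.le_Bs H hf h1 z.1 e
      rw [h2, he, norm_zero, C.W_ge H hf hz] at this
      exact norm_le_zero_iff.1 (nonpos_of_mul_nonpos_right this (abs_pos.2 h3.ne'))
    · rw [← h2]
      exact C.Bs_surj H hm hf h1 (by rw [C.W_ge H hf hz]; exact h3.ne') (by rwa [C.W_ge H hf hz])
  have c5 : ContDiffAt ℝ ∞ (fun z => gi (B z)) z := (contDiffAt_gi (hb z hz).1).comp z c4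
  have c6 : ContDiffAt ℝ ∞ (fun z => (C.Jh f z.1).adjoint ∘L U G (w z) ∘L C.Jh f z.1) z := by
    refine Exit.contDiffAt_clm fun e => ?_
    have c7 : ContDiff ℝ ∞ fun z : ZZ m => (fderiv ℝ (C.Jh f) z.1 e).adjoint :=
      contDiff_adj.comp ((((C.contDiff_Jh' f).fderiv_right (m := ∞) (by simp)).comp
        contDiff_fst).clm_apply contDiff_const)
    refine ((h.clm_apply (contDiffAt_const (c := e))).sub (c7.contDiffAt.clm_apply c1)).congr_of_eventuallyEq ?_
    filter_upwards [hO] with z hz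
    have h1 : (C.ge f z).2 ≠ 0 := norm_ne_zero_iff.1 ((C.ge_GG H hf hz).2.1.trans_ne one_ne_zero)
    refine ext_inner_right ℝ fun e' => ?_
    have h2 := C.inner_HH H h1 f z.1 e e'
    rw [C.W_ge' H hf hz, rev, neg_neg, inner_neg_right] at h2
    rw [inner_sub_left, Su, neg_apply, inner_neg_left, h2,
      ContinuousLinearMap.comp_apply, ContinuousLinearMap.adjoint_inner_left,
      ContinuousLinearMap.adjoint_inner_left, real_inner_comm (fderiv ℝ (C.Jh f) z.1 e e')]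
    simp only [ContinuousLinearMap.comp_apply, hw]
    ring
  refine (c4.clm_comp (c5.clm_comp (c6.clm_comp (c5.clm_comp
    (contDiff_adj.contDiffAt.comp z c4))))).congr_of_eventuallyEq ?_
  filter_upwards [hO] with z hz
  exact Exit.U_eq_J (N221.H.isU H) (C.un_uv H hf hz) rfl (hb z hz).1 (hb z hz).2

/-- `H.Dfl_vu`: `U (φ_t w) ∘ M₁ = M₂` with `M₁, M₂` smooth in `(w, U w, t)` -/
lemma contDiffAt_U_fl {E : Type} [NormedAddCommGroup E] [NormedSpace ℝ E] {w : E → TT N} {e : E}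
    (hw : ContDiffAt ℝ ∞ w e) (hu : ∀ᶠ e' in 𝓝 e, w e' ∈ US G)
    (h : ContDiffAt ℝ ∞ (fun e => U G (w e)) e) (t : ℝ) :
    ContDiffAt ℝ ∞ (fun k : E × ℝ => U G (fl G (w k.1, k.2))) (e, t) := by
  have hq := hu.self_of_nhds
  have c0 : ContDiffAt ℝ ∞ (fun k : E × ℝ => w k.1) (e, t) := hw.comp (e, t) contDiffAt_fst
  have c1 : ContDiffAt ℝ ∞ (fun k : E × ℝ => (w k.1, k.2)) (e, t) := c0.prodMk contDiffAt_snd
  have c2 : ContDiffAt ℝ ∞ (fun k : E × ℝ => Pv G (w k.1)) (e, t) :=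
    contDiff_Pv.contDiffAt.comp (e, t) c0
  have c3 : ContDiffAt ℝ ∞ (fun k : E × ℝ => N221.H.vu G (w k.1)) (e, t) :=
    Exit.contDiffAt_clm fun j => (c2.clm_apply contDiffAt_const).prodMk
      ((((contDiff_dP G).contDiffAt.comp (e, t) c0).clm_apply (c2.clm_apply contDiffAt_const)).add
        ((ContDiffAt.comp (f := Prod.fst) (e, t) h contDiffAt_fst).clm_apply contDiffAt_const))
  have c4 : ContDiffAt ℝ ∞ (fun k : E × ℝ => Exit.Dv G (w k.1) k.2) (e, t) :=
    (((contDiffAt_fl' G hq.1 t).fderiv_right (m := ∞) (by simp)).comp (e, t) c1).clm_comp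
      (contDiffAt_const.clm_comp c3)
  have c5 : ContDiffAt ℝ ∞ (fun k : E × ℝ => PTi G (w k.1) k.2) (e, t) :=
    ContDiffAt.comp (g := fun z : TT N × ℝ => PTi G z.1 z.2) (f := fun k : E × ℝ => (w k.1, k.2))
      (e, t) (contDiffAt_PTi hq.1 t) c1
  have c6 : ContDiffAt ℝ ∞ (fun k : E × ℝ => Exit.Jx G (w k.1) k.2) (e, t) :=
    (c5.clm_comp (contDiffAt_const.clm_comp c4)).add (contDiffAt_const.sub c2)
  have c7 : ContDiffAt ℝ ∞ (fun k : E × ℝ => Ring.inverse (Exit.Jx G (w k.1) k.2)) (e, t) :=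
    ContDiffAt.comp (g := Ring.inverse) (e, t)
      (contDiffAt_ringInverse ℝ (Exit.isUnit_Jx H hq t).unit) c6
  have c8 : ContDiffAt ℝ ∞ (fun k : E × ℝ => dP G (fl G (w k.1, k.2))) (e, t) :=
    (contDiff_dP G).contDiffAt.comp (e, t) ((contDiffAt_fl' G hq.1 t).comp (e, t) c1)
  exact (((contDiffAt_const.clm_comp c4).sub (c8.clm_comp (contDiffAt_const.clm_comp c4))).clm_comp
    (c7.clm_comp c5)).congr_of_eventuallyEq
      (((continuous_fst.tendsto (e, t)).eventually hu).mono fun k hk => Exit.U_fl H hk k.2)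

omit hm in
/-- pointwise version of `X.sm_of_local` (`U (pr y, P w / ‖P w‖)` is smooth where `P (pr y) w ≠ 0`,
read through a local inverse of `pr`) -/
lemma sm_of_pt (h : ∀ y u, C.Un y u → ∃ V : Euc n × Euc N → Op N, ContDiffAt ℝ ∞ V (y, u) ∧
    ∀ᶠ k in 𝓝 (y, u), C.Un k.1 k.2 → V k = U G (C.pr k.1, k.2)) : Sm G := by
  have hn : (∞ : WithTop ℕ∞) ≠ 0 := by simp
  set ν : Euc n × Euc N → Euc N := fun k => ‖G.P (C.pr k.1) k.2‖⁻¹ • G.P (C.pr k.1) k.2 with hν
  have c0 : ContDiff ℝ ∞ fun k : Euc n × Euc N => G.P (C.pr k.1) k.2 :=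
    (G.contDiff_P.comp (C.pr_smooth.comp contDiff_fst)).clm_apply contDiff_snd
  have hF : ∀ k : Euc n × Euc N, G.P (C.pr k.1) k.2 ≠ 0 →
      ContDiffAt ℝ ∞ (fun k => U G (C.pr k.1, ν k)) k := by
    intro k hk
    have h1 : ∀ᶠ k' in 𝓝 k, C.Un k'.1 (ν k') := by
      filter_upwards [c0.continuous.continuousAt.eventually_ne hk] with k' hk'
      exact ⟨⟨C.pr_mem _, (G.T _).smul_mem _ (P_mem G (C.pr_mem _))⟩, norm_smul_inv_norm hk'⟩
    have h2 : ContDiffAt ℝ ∞ (fun k => (k.1, ν k)) k := contDiffAt_fst.prodMk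
      (((c0.contDiffAt.norm ℝ hk).inv (norm_ne_zero_iff.2 hk)).smul c0.contDiffAt)
    obtain ⟨V, v1, v2⟩ := h _ _ h1.self_of_nhds
    refine (v1.comp k h2).congr_of_eventuallyEq ?_
    filter_upwards [h1, h2.continuousAt.tendsto.eventually v2] with k' e1 e2 using (e2 e1).symm
  refine X.sm_of_local H fun q hq => ?_
  obtain ⟨p0, v⟩ := q
  obtain ⟨x, rfl, hx⟩ : ∃ x, C.pr x = p0 ∧ C.Un x v := C.exists_un hq
  obtain ⟨A0, hA⟩ := (fderiv ℝ C.pr x).toLinearMap.exists_leftInverse_of_injective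
    (LinearMap.ker_eq_bot.2 (C.fderiv_pr_inj _))
  set A := LinearMap.toContinuousLinearMap A0
  have hAp : HasStrictFDerivAt (fun y => A (C.pr y))
      (ContinuousLinearEquiv.refl ℝ (Euc n) : Euc n →L[ℝ] Euc n) x :=
    (A.hasStrictFDerivAt.comp _ (C.pr_smooth.contDiffAt.hasStrictFDerivAt hn)).congr_fderiv
      (ContinuousLinearMap.ext fun v => LinearMap.congr_fun hA v)
  obtain ⟨σ, s0, hσ⟩ := X.Loc.rinv (Θ := fun y => A (C.pr y)) (z := x)
    (.of_forall fun y => (A.contDiff.comp C.pr_smooth).contDiffAt)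
    (by rw [hAp.hasFDerivAt.fderiv]; exact (ContinuousLinearEquiv.refl ℝ (Euc n)).surjective)
  obtain ⟨R, r1, r2, -, r3⟩ := R208.local_inverse H.sub (Φ := C.pr) (v₀ := x)
    C.pr_smooth.contDiffAt (.of_forall C.pr_mem) (C.fderiv_pr_inj _)
  set q : TT N := (C.pr x, v)
  have c1 : ContDiff ℝ ∞ fun y : TT N => A y.1 := A.contDiff.comp contDiff_fst
  have t1 : Tendsto (fun y : TT N => A y.1) (𝓝 q) (𝓝 (A (C.pr x))) := c1.continuous.tendsto q
  have t2 : Tendsto (fun y : TT N => σ (A y.1)) (𝓝 q) (𝓝 x) := by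
    have := hσ.self_of_nhds.1.continuousAt.tendsto.comp t1
    rwa [s0] at this
  have t3 : Tendsto (fun y : TT N => y.1) (𝓝 q) (𝓝 (C.pr x)) := continuous_fst.tendsto q
  have t4 : Tendsto (fun y : TT N => R y.1) (𝓝 q) (𝓝 x) := by
    have := r1.continuousAt.tendsto.comp t3
    rwa [r2] at this
  have n0 : G.P (C.pr x) v ≠ 0 := by
    rw [(P_eq_self G (C.pr_mem x)).1 hx.mem]
    exact norm_ne_zero_iff.1 (hx.norm.trans_ne one_ne_zero)
  have key : ∀ᶠ y in 𝓝 q, ContDiffAt ℝ ∞ (fun y : TT N =>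
      U G (C.pr (σ (A y.1)), ν (σ (A y.1), y.2))) y ∧
      (y ∈ US G → (C.pr (σ (A y.1)), ν (σ (A y.1), y.2)) = y) := by
    filter_upwards [t1.eventually hσ, t4.eventually hAp.eventually_left_inverse,
      t2.eventually hAp.eventually_left_inverse, t3.eventually (eventually_nhdsWithin_iff.1 r3),
      (t2.prodMk_nhds (continuous_snd.tendsto q)).eventually
        ((c0.continuous.continuousAt (x := (x, v))).eventually_ne n0)] with y y1 y3 y4 y5 y6
    refine ⟨(hF _ y6).comp (f := fun y : TT N => (σ (A y.1), y.2)) y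
      ((y1.1.comp y c1.contDiffAt).prodMk contDiffAt_snd), fun hy => ?_⟩
    have e3 : C.pr (σ (A y.1)) = y.1 := by
      rw [y5 hy.1.1] at y3
      rw [y1.2, y3] at y4
      rw [← y4, y5 hy.1.1]
    have e4 : ‖y.2‖ = 1 := hy.2
    refine Prod.ext e3 ?_
    simp only [hν, e3, (P_eq_self G hy.1.1).1 hy.1.2, e4, inv_one, one_smul]
  obtain ⟨W, w1, w2, w3⟩ := _root_.eventually_nhds_iff.1 key
  exact ⟨W, _, w2, w3, fun y hy => (w1 y hy).1.contDiffWithinAt,
    fun y hy => congrArg (U G) ((w1 y hy.1).2 hy.2)⟩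

/-- EXIT: `same_geod`, `loc_cross` give `(pr y, u) = fl ((pr (hy Z.1), uv Z), -τ)` with `Z, τ`
smooth in the ambient variables `(y, u)` -/
theorem sm_of_chart (h : ∀ γ ∈ GG n, ∃ (f : FF n N m) (z : ZZ m), C.Frm f ∧ z ∈ C.Dm f ∧
    C.ge f z = γ ∧ ContDiffAt ℝ ∞ (C.Su f) z) : Sm G := by
  refine C.sm_of_pt H fun y u hu => ?_
  obtain ⟨f, z, hf, hz, he, hs⟩ := h _ (C.ep_GG H.a_pos hu)
  obtain ⟨h1, h2⟩ := C.same_geod H hu (C.un_uv H hf hz) (congrArg Prod.fst he).symm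
    (congrArg Prod.snd he).symm
  obtain ⟨τ, Z, c1, c2, e1, e2, h3⟩ := C.loc_cross H hm hf hz hu h1 h2
  have c3 : ContDiffAt ℝ ∞ (fun k : Euc n × Euc N => (f, k)) (y, u) :=
    contDiffAt_const.prodMk contDiffAt_id
  have c4 : ContDiffAt ℝ ∞ (fun z : ZZ m => ((C.pr (C.hy f z.1), C.uv f z) : TT N)) z :=
    (C.pr_smooth.comp ((C.contDiff_hy' f).comp contDiff_fst)).contDiffAt.prodMk
      ((C.contDiffAt_uv H hf hz).comp (f := fun z => (f, z)) z
        (contDiffAt_const.prodMk contDiffAt_id))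
  have c5 := contDiffAt_U_fl H hm c4
    (mem_of_superset ((C.isOpen_Dm H hf).mem_nhds hz) fun z hz => C.un_uv H hf hz)
    (C.contDiffAt_U_chart H hm hf hz hs) (-τ (f, y, u))
  rw [← e2] at c5
  refine ⟨_, c5.comp (f := fun k : Euc n × Euc N => (Z (f, k), -τ (f, k))) (y, u)
    ((c2.comp (y, u) c3).prodMk (c1.comp (y, u) c3).neg), ?_⟩
  filter_upwards [c3.continuousAt.tendsto.eventually h3] with k hk hk'
  obtain ⟨e3, e4⟩ := hk hf hk'
  simp only [Function.comp_apply] at e3 e4 ⊢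
  rw [e3, e4, ← C.up_gd hk'.mem, ← fl_add' G hk'.ts, add_neg_cancel, fl_zero]

end Crest.Agent.N221.Cov
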