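import Crest.Agent.N221.Ch.Frm
import Crest.Agent.N221.All
import Crest.Agent.N221.H.Hor
import Crest.Agent.N221.H.Irw
import Crest.Agent.N221.H.Nem
import Crest.Agent.N221.H.DHor
import Crest.Agent.N221.H.Uniq

/-! Row 221, block Ch: the chart `ge`, the leaves as graphs, Hessians, the determinant identity. -/

set_option autoImplicit false
set_option linter.unusedSectionVars false
set_option linter.unusedVariables false

open MeasureTheory Set Filter Topology Metric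
open scoped ContDiff RealInnerProductSpace ENNReal
open Crest.GeometryTopology.Submanifold
open Crest.Agent.R241.DDefs Crest.Agent.R241.D2
open Crest.Agent.R208.J Crest.Agent.R208.L

noncomputable section

namespace Crest.Agent.N221.Cov

variable {n N m : ℕ} {a : ℝ} {S : Set (Euc N)} {G : Geo n N (-(a ^ 2)) S} (C : Cov G)
variable {f f' f'' : FF n N m} {z z' : ZZ m} {x y y' ξ η : Euc n} {v u u' : Euc N} {q q' : Euc m}
  {g : Euc n → Euc n} {s t : ℝ}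

lemma _root_.Crest.Agent.N221.horT : H.HorS := H.horS (H.irwS H.nemS H.hadS H.fixS)
lemma _root_.Crest.Agent.N221.cobT : H.CobHorS :=
  H.cobHorS H.nemS H.hadS H.dHorS (H.uniqS covS)
lemma _root_.Crest.Agent.N221.exists_co (H : Hyp n N a S) (h : Cob G) : ∃ h α c, Co G h α c := by
  obtain ⟨h, α, h1, h2⟩ := h
  obtain ⟨c, h3⟩ := N221.H.splitS sys volT N221.lps n N a S G H h α h1 h2
  exact ⟨h, α, c, h1, h2, h3⟩

variable (H : Hyp n N a S) (hm : m + 1 = n)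
include H

namespace ChB

omit H in
lemma cd_J : ContDiff ℝ ∞ fun k : FF n N m × ZZ m => C.Jh k.1 k.2.1 :=
  C.contDiff_Jh.comp (f := fun k : FF n N m × ZZ m => (k.1, k.2.1))
    (contDiff_fst.prodMk contDiff_snd.fst)

lemma cd_gi (hf : C.Frm f) (z : ZZ m) :
    ContDiffAt ℝ ∞ (fun k : FF n N m × ZZ m => gi (C.Jh k.1 k.2.1) k.2.2) (f, z) :=
  ((contDiffAt_gi (C.Jh_inj H.a_pos hf z.1)).comp
    (f := fun k : FF n N m × ZZ m => C.Jh k.1 k.2.1) (f, z) (cd_J C).contDiffAt).clm_apply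
    contDiffAt_snd.snd

lemma cd_in (hf : C.Frm f) (z : ZZ m) :
    ContDiffAt ℝ ∞ (fun k : FF n N m × ZZ m => ⟪k.2.2, gi (C.Jh k.1 k.2.1) k.2.2⟫) (f, z) :=
  contDiffAt_snd.snd.inner ℝ (cd_gi C H hf z)

omit H in
lemma norm_sq (hf : C.Frm f) (q e : Euc m) (c : ℝ) :
    ‖C.Jh f q e + c • C.nr f q‖ ^ 2 = ‖C.Jh f q e‖ ^ 2 + c ^ 2 := by
  rw [norm_add_sq_real, real_inner_smul_right, real_inner_comm, C.inner_nr_Jh hf, norm_smul,
    (C.un_nr hf q).norm, Real.norm_eq_abs, mul_one, sq_abs]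
  ring

omit H in
lemma adj_nr (hf : C.Frm f) (q : Euc m) : (C.Jh f q).adjoint (C.nr f q) = 0 :=
  ext_inner_right ℝ fun e => by
    rw [ContinuousLinearMap.adjoint_inner_left, C.inner_nr_Jh hf, inner_zero_left]

omit H in
lemma key {W ν w : Euc N} (hW : ‖W‖ = 1) (hν : ‖ν‖ = 1) (h : ⟪ν, w⟫ = 0) :
    |⟪W, ν⟫| * ‖w‖ ≤ ‖w - ⟪W, w⟫ • W‖ := by
  have h1 : ‖W - ⟪W, ν⟫ • ν‖ ^ 2 = 1 - ⟪W, ν⟫ ^ 2 := by
    rw [norm_sub_sq_real, real_inner_smul_right, norm_smul, hW, hν, Real.norm_eq_abs, mul_one,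
      sq_abs]
    ring
  have h2 : ‖w - ⟪W, w⟫ • W‖ ^ 2 = ‖w‖ ^ 2 - ⟪W, w⟫ ^ 2 := by
    rw [norm_sub_sq_real, real_inner_smul_right, norm_smul, hW, Real.norm_eq_abs, mul_one, sq_abs,
      real_inner_comm W w]
    ring
  have h3 := pow_le_pow_left₀ (abs_nonneg _) (abs_real_inner_le_norm (W - ⟪W, ν⟫ • ν) w) 2
  rw [inner_sub_left, real_inner_smul_left, h, mul_zero, sub_zero, sq_abs, mul_pow, h1] at h3
  refine le_of_sq_le_sq ?_ (norm_nonneg _)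
  rw [h2, mul_pow, sq_abs]
  linarith

end ChB

/-! ### the unit vector `uv` -/

lemma mem_Dm (hf : C.Frm f) (hz : ‖z.2‖ < 1) : z ∈ C.Dm f := by
  have h := inner_gi_le (C.le_Jh H.a_pos hf z.1) z.2
  have h0 := norm_nonneg z.2
  show ⟪z.2, gi (C.Jh f z.1) z.2⟫ < 1
  nlinarith

lemma isOpen_Dm (hf : C.Frm f) : IsOpen (C.Dm f) := by
  refine isOpen_iff_mem_nhds.2 fun z hz => ?_
  have h := (ChB.cd_in C H hf z).continuousAt.comp (f := fun z : ZZ m => (f, z))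
    (Continuous.prodMk_right f).continuousAt
  exact h.eventually (gt_mem_nhds hz)

lemma ev_Dm (hf : C.Frm f) (hz : z ∈ C.Dm f) :
    ∀ᶠ k : FF n N m × ZZ m in 𝓝 (f, z), k.2 ∈ C.Dm k.1 :=
  (ChB.cd_in C H hf z).continuousAt.eventually (gt_mem_nhds hz)

lemma un_uv (hf : C.Frm f) (hz : z ∈ C.Dm f) : C.Un (C.hy f z.1) (C.uv f z) := by
  have hν := C.un_nr hf z.1
  refine ⟨⟨C.pr_mem _, Submodule.add_mem _ (C.Jh_mem _ _ _) (Submodule.smul_mem _ _ hν.mem)⟩, ?_⟩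
  have h1 : 0 ≤ 1 - ⟪z.2, gi (C.Jh f z.1) z.2⟫ := sub_nonneg.2 (le_of_lt hz)
  have h2 : ‖C.uv f z‖ ^ 2 = 1 := by
    rw [uv, ChB.norm_sq C hf, Real.sq_sqrt h1, inner_gi (C.Jh_inj H.a_pos hf z.1),
      real_inner_self_eq_norm_sq]
    ring
  exact (pow_eq_one_iff_of_nonneg (norm_nonneg _) two_ne_zero).1 h2

lemma adj_uv (hf : C.Frm f) (z : ZZ m) : (C.Jh f z.1).adjoint (C.uv f z) = z.2 := by
  rw [uv, map_add, map_smul, gram_gi (C.Jh_inj H.a_pos hf z.1), ChB.adj_nr C hf, smul_zero,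
    add_zero]

lemma inner_uv_nr (hf : C.Frm f) (z : ZZ m) :
    ⟪C.uv f z, C.nr f z.1⟫ = √(1 - ⟪z.2, gi (C.Jh f z.1) z.2⟫) := by
  rw [uv, inner_add_left, real_inner_smul_left, real_inner_comm, C.inner_nr_Jh hf,
    real_inner_self_eq_norm_sq, (C.un_nr hf z.1).norm]
  ring

lemma uv_side (hf : C.Frm f) (hz : z ∈ C.Dm f) : 0 < ⟪C.uv f z, C.nr f z.1⟫ := by
  rw [C.inner_uv_nr H hf]
  exact Real.sqrt_pos.2 (sub_pos.2 hz)

lemma uv_zero (hf : C.Frm f) : C.uv f 0 = f.2.1 := by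
  simp [uv, C.nr_zero hf]

lemma contDiffAt_uv (hf : C.Frm f) (hz : z ∈ C.Dm f) :
    ContDiffAt ℝ ∞ (fun k : FF n N m × ZZ m => C.uv k.1 k.2) (f, z) := by
  have h1 : ContDiffAt ℝ ∞ (fun k : FF n N m × ZZ m => C.nr k.1 k.2.1) (f, z) :=
    (C.contDiffAt_nr hf z.1).comp (f := fun k : FF n N m × ZZ m => (k.1, k.2.1)) (f, z)
      (contDiffAt_fst.prodMk contDiffAt_snd.fst)
  exact ((ChB.cd_J C).contDiffAt.clm_apply (ChB.cd_gi C H hf z)).add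
    (((contDiffAt_const.sub (ChB.cd_in C H hf z)).sqrt (sub_pos.2 hz).ne').smul h1)

include hm in
lemma uv_eq (hf : C.Frm f) (hu : C.Un (C.hy f q) u) (h : 0 < ⟪u, C.nr f q⟫) :
    (q, (C.Jh f q).adjoint u) ∈ C.Dm f ∧ C.uv f (q, (C.Jh f q).adjoint u) = u := by
  have hd := C.decomp H.a_pos hm hf hu.mem
  have h1 : (1 : ℝ) - ⟪(C.Jh f q).adjoint u, gi (C.Jh f q) ((C.Jh f q).adjoint u)⟫ =
      ⟪u, C.nr f q⟫ ^ 2 := by
    have h2 := ChB.norm_sq C hf q (gi (C.Jh f q) ((C.Jh f q).adjoint u)) ⟪u, C.nr f q⟫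
    rw [← hd, hu.norm] at h2
    rw [inner_gi (C.Jh_inj H.a_pos hf q), real_inner_self_eq_norm_sq]
    linarith
  refine ⟨?_, ?_⟩
  · show ⟪(C.Jh f q).adjoint u, gi (C.Jh f q) ((C.Jh f q).adjoint u)⟫ < 1
    have := pow_pos h 2
    linarith
  · rw [uv]
    simp only
    rw [h1, Real.sqrt_sq h.le, ← hd]

/-! ### the end points -/

lemma ge_GG (hf : C.Frm f) (hz : z ∈ C.Dm f) : C.ge f z ∈ GG n :=
  C.ep_GG H.a_pos (C.un_uv H hf hz)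

lemma ge_zero (hf : C.Frm f) : C.ge f 0 = (C.ep f.1 f.2.1, C.ep f.1 (-f.2.1)) := by
  rw [ge, C.uv_zero H hf, Prod.fst_zero, C.hy_zero]

lemma W_ge (hf : C.Frm f) (hz : z ∈ C.Dm f) : C.W (C.ge f z).1 (C.hy f z.1) = C.uv f z :=
  C.W_ep_self H.a_pos (C.un_uv H hf hz)

lemma W_ge' (hf : C.Frm f) (hz : z ∈ C.Dm f) : C.W (C.ge f z).2 (C.hy f z.1) = -C.uv f z :=
  C.W_ep_self H.a_pos (C.un_uv H hf hz).neg

lemma continuousOn_ge : ContinuousOn (fun k : FF n N m × ZZ m => C.ge k.1 k.2)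
    {k | C.Frm k.1 ∧ k.2 ∈ C.Dm k.1} := by
  have h1 : Continuous fun k : FF n N m × ZZ m => C.hy k.1 k.2.1 :=
    C.contDiff_hy.continuous.comp (f := fun k : FF n N m × ZZ m => (k.1, k.2.1))
      (continuous_fst.prodMk continuous_snd.fst)
  have h2 : ContinuousOn (fun k : FF n N m × ZZ m => C.uv k.1 k.2)
      {k | C.Frm k.1 ∧ k.2 ∈ C.Dm k.1} := fun k hk =>
    (C.contDiffAt_uv H hk.1 hk.2).continuousAt.continuousWithinAt
  have h3 := (C.continuousOn_ep H.a_pos).comp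
    (f := fun k : FF n N m × ZZ m => (C.hy k.1 k.2.1, C.uv k.1 k.2)) (h1.continuousOn.prodMk h2)
    fun k hk => C.un_uv H hk.1 hk.2
  have h4 := (C.continuousOn_ep H.a_pos).comp
    (f := fun k : FF n N m × ZZ m => (C.hy k.1 k.2.1, -C.uv k.1 k.2))
    (h1.continuousOn.prodMk h2.neg) fun k hk => (C.un_uv H hk.1 hk.2).neg
  exact h3.prodMk h4

include hm in
lemma exists_ge_zero (h : (ξ, η) ∈ GG n) (s : ℝ) :
    ∃ f : FF n N m, C.Frm f ∧ f.1 = C.ft ξ η s ∧ C.ge f 0 = (ξ, η) := by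
  obtain ⟨L, hL⟩ := C.exists_frm hm (C.un_W H.a_pos (bas_ne0 h.1) (C.ft ξ η s))
  refine ⟨_, hL, rfl, ?_⟩
  rw [C.ge_zero H hL]
  exact Prod.ext (C.ep_ft H.a_pos h s).1 (C.ep_ft H.a_pos h s).2

/-- unit vectors with the same end points lie on one geodesic (`ft_ep`, `gd_ft`, `vel_ft`) -/
lemma same_geod (hu : C.Un y u) (hu' : C.Un y' u') (h1 : C.ep y u = C.ep y' u')
    (h2 : C.ep y (-u) = C.ep y' (-u')) :
    y' = C.gd y u (C.b (C.ep y u) y - C.b (C.ep y u) y') ∧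
      u' = C.vel y u (C.b (C.ep y u) y - C.b (C.ep y u) y') := by
  have hG := GG_sub (C.ep_GG H.a_pos hu)
  have e := C.ft_ep H.a_pos hu
  have e' := C.ft_ep H.a_pos hu'
  rw [← h1, ← h2] at e'
  have w := C.W_ep_self H.a_pos hu
  have w' := C.W_ep_self H.a_pos hu'
  rw [← h1] at w'
  have k := C.gd_ft H.a_pos hG (-C.b (C.ep y u) y) (C.b (C.ep y u) y - C.b (C.ep y u) y')
  have k' := C.vel_ft H.a_pos hG (-C.b (C.ep y u) y) (C.b (C.ep y u) y - C.b (C.ep y u) y')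
  rw [e, w, neg_add_eq_sub, sub_sub_cancel_left, e'] at k k'
  exact ⟨k.symm, by rw [k', w']⟩

lemma ge_of_gd (hu : C.Un y u) (h1 : C.hy f z.1 = C.gd y u t) (h2 : C.uv f z = C.vel y u t) :
    C.ge f z = (C.ep y u, C.ep y (-u)) ∧ C.b (C.ep y u) y - C.b (C.ep y u) (C.hy f z.1) = t := by
  refine ⟨?_, ?_⟩
  · rw [ge, h1, h2, C.ep_gd H.a_pos hu, C.ep_gd_neg H.a_pos hu]
  · have e := C.b_gd H.a_pos (C.ep_ne_zero H.a_pos hu) y t
    rw [C.W_ep_self H.a_pos hu] at e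
    rw [h1, e, sub_sub_cancel]

lemma cc_ge (hf : C.Frm f) (hz : z ∈ C.Dm f) : C.cc (C.ge f z).1 (C.ge f z).2 =
    C.bq f (C.ge f z).1 z.1 + C.bq f (C.ge f z).2 z.1 - C.b (C.ge f z).1 f.1 -
      C.b (C.ge f z).2 f.1 := by
  rw [C.cc_eq H.a_pos (x := C.hy f z.1) (ξ := (C.ge f z).1) (η := (C.ge f z).2)
    (GG_sub (C.ge_GG H hf hz))
    (by rw [C.W_ge H hf hz, C.W_ge' H hf hz]), bq, bq]
  ring

/-! ### the leaves -/

lemma contDiff_bq (hξ : ξ ≠ 0) (f : FF n N m) : ContDiff ℝ ∞ (C.bq f ξ) :=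
  contDiff_const.sub ((C.contDiff_b H horT hξ).comp (C.contDiff_hy' f))

lemma contDiff_pq (hξ : ξ ≠ 0) (f : FF n N m) : ContDiff ℝ ∞ (C.pq f ξ) :=
  (contDiff_adj.comp (C.contDiff_Jh' f)).clm_apply
    ((C.contDiff_W H horT hξ).comp (C.contDiff_hy' f))

lemma hasFDerivAt_bq (hξ : ξ ≠ 0) (f : FF n N m) (q : Euc m) :
    HasFDerivAt (C.bq f ξ) (innerSL ℝ (C.pq f ξ q)) q := by
  have h1 := ((C.contDiff_hy' f).differentiable (by simp) q).hasFDerivAt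
  refine (((C.hasFDerivAt_b H.a_pos hξ (C.hy f q)).comp q h1).const_sub (C.b ξ f.1)).congr_fderiv ?_
  ext e
  simp [pq, ContinuousLinearMap.adjoint_inner_left, C.Jh_eq]

lemma hasFDerivAt_pq (hξ : ξ ≠ 0) (f : FF n N m) (q : Euc m) :
    HasFDerivAt (C.pq f ξ) (C.HH f ξ q) q :=
  ((C.contDiff_pq H hξ f).differentiable (by simp) q).hasFDerivAt

lemma bq_zero (f : FF n N m) (ξ : Euc n) : C.bq f ξ 0 = 0 := by
  rw [bq, C.hy_zero, sub_self]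

/-- `fderiv_W'`; the `dP` part is normal -/
lemma inner_HH (hξ : ξ ≠ 0) (f : FF n N m) (q e e' : Euc m) :
    ⟪C.HH f ξ q e, e'⟫ = ⟪fderiv ℝ (C.Jh f) q e e', C.W ξ (C.hy f q)⟫ -
      ⟪U G (rev (C.pr (C.hy f q), C.W ξ (C.hy f q))) (C.Jh f q e), C.Jh f q e'⟫ := by
  have hy := ((C.contDiff_hy' f).differentiable (by simp) q).hasFDerivAt
  have hW := (((C.contDiff_W H horT hξ).differentiable (by simp) (C.hy f q)).hasFDerivAt).comp q hy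
  have hJ := (((C.contDiff_Jh' f).differentiable (by simp) q).hasFDerivAt).clm_apply
    (hasFDerivAt_const e' q)
  have h1 := hW.inner ℝ hJ
  have h2 := (C.hasFDerivAt_pq H hξ f q).inner ℝ (hasFDerivAt_const e' q)
  have h3 : (fun q => ⟪C.pq f ξ q, e'⟫) = fun q => ⟪(C.W ξ ∘ C.hy f) q, C.Jh f q e'⟫ :=
    funext fun q => ContinuousLinearMap.adjoint_inner_left _ _ _
  rw [h3] at h2
  have h4 := DFunLike.congr_fun (h2.unique h1) e
  have hx := C.un_W H.a_pos hξ (C.hy f q)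
  have h5 : fderiv ℝ C.pr (C.hy f q) (fderiv ℝ (C.hy f) q e) = C.Jh f q e := by
    rw [C.Jh_eq]; rfl
  have h6 : ⟪dP G (C.pr (C.hy f q), C.W ξ (C.hy f q)) (C.Jh f q e), C.Jh f q e'⟫ = 0 :=
    inner_II G (C.pr_mem _) hx.mem (C.Jh_mem f q e) (C.Jh_mem f q e')
  simp only [ContinuousLinearMap.comp_apply, fderivInnerCLM_apply, ContinuousLinearMap.prod_apply,
    zero_apply, inner_zero_right, zero_add, ContinuousLinearMap.flip_apply,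
    Function.comp_apply, ContinuousLinearMap.comp_zero] at h4
  rw [h4, C.fderiv_W' H horT N221.H.dHorS hξ, h5, inner_sub_left, h6, real_inner_comm]
  ring

lemma HH_symm (hξ : ξ ≠ 0) (f : FF n N m) (q e e' : Euc m) :
    ⟪C.HH f ξ q e, e'⟫ = ⟪e, C.HH f ξ q e'⟫ := by
  have h : IsSymmSndFDerivAt ℝ (fun q => C.pr (C.hy f q)) q :=
    (C.pr_smooth.comp (C.contDiff_hy' f)).contDiffAt.isSymmSndFDerivAt
      (by simp only [minSmoothness_of_isRCLikeNormedField]; exact ENat.LEInfty.out)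
  have h1 : fderiv ℝ (C.Jh f) q e e' = fderiv ℝ (C.Jh f) q e' e := h e e'
  rw [real_inner_comm (C.HH f ξ q e'), C.inner_HH H hξ, C.inner_HH H hξ, h1,
    (N221.H.isU H).symm _ (rev_US (C.un_W H.a_pos hξ _)), real_inner_comm (C.Jh f q e)]

lemma eq_gs (hf : C.Frm f) (hz : z ∈ C.Dm f) : C.gs f (C.ge f z).1 z.1 = z := by
  rw [gs, pq, C.W_ge H hf hz, C.adj_uv H hf]

lemma eq_gu (hf : C.Frm f) (hz : z ∈ C.Dm f) : C.gu f (C.ge f z).2 z.1 = z := by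
  rw [gu, pq, C.W_ge' H hf hz, map_neg, neg_neg, C.adj_uv H hf]

include hm in
lemma gs_spec (hf : C.Frm f) (hξ : ‖ξ‖ = 1) (h : 0 < ⟪C.W ξ (C.hy f q), C.nr f q⟫) :
    C.gs f ξ q ∈ C.Dm f ∧ C.uv f (C.gs f ξ q) = C.W ξ (C.hy f q) ∧ (C.ge f (C.gs f ξ q)).1 = ξ := by
  obtain ⟨h1, h2⟩ := C.uv_eq H hm hf (C.un_W H.a_pos (bas_ne0 hξ) _) h
  refine ⟨h1, h2, ?_⟩
  show C.ep (C.hy f q) (C.uv f (q, (C.Jh f q).adjoint (C.W ξ (C.hy f q)))) = ξ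
  rw [h2, C.ep_W H.a_pos hξ]

include hm in
lemma gu_spec (hf : C.Frm f) (hη : ‖η‖ = 1) (h : 0 < ⟪C.W η (C.hy f q), C.nr (fp f) q⟫) :
    C.gu f η q ∈ C.Dm f ∧ C.uv f (C.gu f η q) = -C.W η (C.hy f q) ∧ (C.ge f (C.gu f η q)).2 = η := by
  rw [C.nr_fp, inner_neg_right, ← inner_neg_left] at h
  obtain ⟨h1, h2⟩ := C.uv_eq H hm hf (C.un_W H.a_pos (bas_ne0 hη) _).neg h
  rw [map_neg] at h1 h2
  refine ⟨h1, h2, ?_⟩
  show C.ep (C.hy f q) (-C.uv f (q, -(C.Jh f q).adjoint (C.W η (C.hy f q)))) = η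
  rw [h2, neg_neg, C.ep_W H.a_pos hη]

lemma Bs_mem (hξ : ξ ≠ 0) (f : FF n N m) (q e : Euc m) :
    C.Bs f ξ q e ∈ Vp G (C.pr (C.hy f q), C.W ξ (C.hy f q)) :=
  Pv_mem (C.un_W H.a_pos hξ _).ts (C.un_W H.a_pos hξ _).norm _

lemma Bs_apply (hξ : ξ ≠ 0) (f : FF n N m) (q e : Euc m) :
    C.Bs f ξ q e = C.Jh f q e - ⟪C.pq f ξ q, e⟫ • C.W ξ (C.hy f q) := by
  rw [Bs, ContinuousLinearMap.comp_apply, Pv_apply, pq, ContinuousLinearMap.adjoint_inner_left,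
    (P_eq_self G (C.pr_mem _)).1 (C.Jh_mem f q e)]

lemma Bs_le (hξ : ξ ≠ 0) (f : FF n N m) (q e : Euc m) : ‖C.Bs f ξ q e‖ ≤ ‖C.Jh f q e‖ :=
  norm_Pv_le (C.un_W H.a_pos hξ _) _

/-- `⟪W, J e⟫² ≤ ‖J e‖² (1 - ⟪W, nr⟫²)` -/
lemma le_Bs (hf : C.Frm f) (hξ : ξ ≠ 0) (q e : Euc m) :
    |⟪C.W ξ (C.hy f q), C.nr f q⟫| * ‖e‖ ≤ ‖C.Bs f ξ q e‖ := by
  have h1 := C.le_Jh H.a_pos hf q e
  have h2 := ChB.key (C.un_W H.a_pos hξ (C.hy f q)).norm (C.un_nr hf q).norm (C.inner_nr_Jh hf q e)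
  rw [C.Bs_apply H hξ, pq, ContinuousLinearMap.adjoint_inner_left]
  exact (mul_le_mul_of_nonneg_left h1 (abs_nonneg _)).trans h2

lemma Bs_inj (hf : C.Frm f) (hξ : ξ ≠ 0) (h : ⟪C.W ξ (C.hy f q), C.nr f q⟫ ≠ 0) :
    Function.Injective (C.Bs f ξ q) := by
  refine (injective_iff_map_eq_zero _).2 fun e he => ?_
  have h1 := C.le_Bs H hf hξ q e
  rw [he, norm_zero] at h1
  exact norm_le_zero_iff.1 (nonpos_of_mul_nonpos_right h1 (abs_pos.2 h))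

include hm in
lemma Bs_surj (hf : C.Frm f) (hξ : ξ ≠ 0) (h : ⟪C.W ξ (C.hy f q), C.nr f q⟫ ≠ 0) {w : Euc N}
    (hw : w ∈ Vp G (C.pr (C.hy f q), C.W ξ (C.hy f q))) : ∃ e, C.Bs f ξ q e = w := by
  have hx := C.un_W H.a_pos hξ (C.hy f q)
  have h1 := finrank_Vp hx.ts hx.norm
  exact surj_of_finrank (C.Bs_inj H hf hξ h) (C.Bs_mem H hξ f q) (by omega) hw

lemma inner_HH_le (hf : C.Frm f) (hξ : ξ ≠ 0) (q e : Euc m) :
    ⟪C.HH f ξ q e, e⟫ ≤ (‖G.P (C.pr (C.hy f q)) ∘L fderiv ℝ (C.Jh f) q e‖ * ‖e‖) -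
      a * (⟪C.W ξ (C.hy f q), C.nr f q⟫ * ‖e‖) ^ 2 := by
  have hx := C.un_W H.a_pos hξ (C.hy f q)
  have hU : IsU G (U G) := N221.H.isU H
  have h1 : ⟪fderiv ℝ (C.Jh f) q e e, C.W ξ (C.hy f q)⟫ ≤
      ‖G.P (C.pr (C.hy f q)) ∘L fderiv ℝ (C.Jh f) q e‖ * ‖e‖ := by
    rw [← (P_eq_self G (C.pr_mem _)).1 hx.mem, ← inner_P_left G (C.pr_mem _)]
    refine (real_inner_le_norm _ _).trans ?_
    rw [hx.norm, mul_one]
    exact (G.P (C.pr (C.hy f q)) ∘L fderiv ℝ (C.Jh f) q e).le_opNorm e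
  have h2 := hU.lower _ (rev_US hx) (C.Bs f ξ q e) (by rw [Vp_rev]; exact C.Bs_mem H hξ f q e)
  have h3 : ⟪U G (rev (C.pr (C.hy f q), C.W ξ (C.hy f q))) (C.Bs f ξ q e), C.Bs f ξ q e⟫ =
      ⟪U G (rev (C.pr (C.hy f q), C.W ξ (C.hy f q))) (C.Jh f q e), C.Jh f q e⟫ := by
    rw [Bs, ContinuousLinearMap.comp_apply, N221.H.Um_Pv hU hx, ← inner_Pv hx.ts,
      N221.H.Pv_Um hU hx]
  have h4 := pow_le_pow_left₀ (by positivity) (C.le_Bs H hf hξ q e) 2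
  rw [mul_pow, sq_abs, ← mul_pow] at h4
  have h5 := mul_le_mul_of_nonneg_left h4 H.a_pos.le
  rw [C.inner_HH H hξ]
  linarith

lemma Su_sub_Ss (hf : C.Frm f) (hz : z ∈ C.Dm f) : C.Su f z - C.Ss f z =
    (C.Bs f (C.ge f z).1 z.1).adjoint ∘L UDn.E G (C.pr (C.hy f z.1), C.uv f z) ∘L
      C.Bs f (C.ge f z).1 z.1 := by
  have hx := C.un_uv H hf hz
  have hG := C.ge_GG H hf hz
  have hU : IsU G (U G) := N221.H.isU H
  refine ContinuousLinearMap.ext fun e => ext_inner_right ℝ fun e' => ?_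
  have h0 : rev (C.pr (C.hy f z.1), -C.uv f z) = (C.pr (C.hy f z.1), C.uv f z) :=
    rev_rev (C.pr (C.hy f z.1), C.uv f z)
  rw [Su, Ss, sub_apply, neg_apply, inner_sub_left, inner_neg_left, C.inner_HH H (bas_ne0 hG.1),
    C.inner_HH H (bas_ne0 hG.2.1), ContinuousLinearMap.comp_apply,
    ContinuousLinearMap.adjoint_inner_left, Bs, C.W_ge H hf hz, C.W_ge' H hf hz, h0]
  simp only [ContinuousLinearMap.comp_apply]
  rw [UDn.E_apply, Pv_Pv hx, sub_self, add_zero, hU.comp_Pv _ hx, N221.H.Um_Pv hU hx,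
    ← inner_Pv hx.ts, map_add, hU.Pv_comp hx, N221.H.Pv_Um hU hx, inner_add_left, inner_neg_right]
  ring

include hm in
/-- THE PAIRING IDENTITY -/
lemma det_Su_sub_Ss {h c : ℝ} {α : TT N → ℝ} (hc : Co G h α c) (hf : C.Frm f) (hz : z ∈ C.Dm f) :
    (C.Su f z - C.Ss f z).det =
      Real.exp (C.aa α c f (C.ge f z).1 z.1 + C.aa α c f (C.ge f z).2 z.1) := by
  have hx := C.un_uv H hf hz
  have hG := C.ge_GG H hf hz
  have hU : IsU G (U G) := N221.H.isU H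
  have h1 : ⟪C.W (C.ge f z).1 (C.hy f z.1), C.nr f z.1⟫ ≠ 0 := by
    rw [C.W_ge H hf hz]; exact (C.uv_side H hf hz).ne'
  have hB := C.Bs_inj H hf (bas_ne0 hG.1) h1
  have h0 : rev (C.pr (C.hy f z.1), -C.uv f z) = (C.pr (C.hy f z.1), C.uv f z) :=
    rev_rev (C.pr (C.hy f z.1), C.uv f z)
  have h2 : C.kq f (C.ge f z).2 z.1 = C.kq f (C.ge f z).1 z.1 := by
    rw [kq, kq, Bs, Bs, C.W_ge H hf hz, C.W_ge' H hf hz]
    exact congrArg (fun A : Op N => Real.log ((A ∘L C.Jh f z.1).adjoint ∘L A ∘L C.Jh f z.1).det)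
      (Pv_rev (C.pr (C.hy f z.1), C.uv f z))
  have h3 : (UDn.E G (C.pr (C.hy f z.1), C.uv f z)).det =
      Real.exp (ldet G (C.pr (C.hy f z.1), C.uv f z)) :=
    (Real.exp_log ((ldetT n N a S G H).2.1 _ hx)).symm
  have h4 : ((C.Bs f (C.ge f z).1 z.1).adjoint ∘L C.Bs f (C.ge f z).1 z.1).det =
      Real.exp (C.kq f (C.ge f z).1 z.1) := (Real.exp_log (det_gram_pos hB)).symm
  rw [C.Su_sub_Ss H hf hz, det_gram_conj hB, h3, h4, hc.split _ hx, ← Real.exp_add, aa, aa, h2,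
    C.W_ge H hf hz, C.W_ge' H hf hz, h0]
  · congr 1; ring
  · intro w
    obtain ⟨e, he⟩ := C.Bs_surj H hm hf (bas_ne0 hG.1) h1
      (w := UDn.E G (C.pr (C.hy f z.1), C.uv f z) w - w) (by
        rw [C.W_ge H hf hz, UDn.E_apply, add_sub_assoc, sub_sub_cancel_left]
        refine Submodule.add_mem _ (Submodule.add_mem _ (hU.mem hx w) ?_)
          (Submodule.neg_mem _ (Pv_mem hx.ts hx.norm w))
        rw [← Vp_rev]; exact hU.mem (rev_US hx) w)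
    exact ⟨e, he.symm⟩

/-! ### symmetries -/

omit H in
lemma bq_fp (f : FF n N m) : C.bq (fp f) = C.bq f := rfl
omit H in
lemma pq_fp (f : FF n N m) : C.pq (fp f) = C.pq f := rfl
omit H in
lemma HH_fp (f : FF n N m) : C.HH (fp f) = C.HH f := rfl
omit H in
lemma aa_fp (α : TT N → ℝ) (c : ℝ) (f : FF n N m) : C.aa α c (fp f) = C.aa α c f := rfl
omit H in
lemma gs_fp (f : FF n N m) (η : Euc n) (q : Euc m) : C.gs (fp f) η q = flp (C.gu f η q) :=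
  Prod.ext rfl (neg_neg _).symm
omit H in
lemma gu_fp (f : FF n N m) (ξ : Euc n) (q : Euc m) : C.gu (fp f) ξ q = flp (C.gs f ξ q) := rfl
omit H in
lemma Dm_fp : flp z ∈ C.Dm (fp f) ↔ z ∈ C.Dm f := by
  simp [Dm, flp, C.Jh_fp]
omit H in
lemma uv_fp (f : FF n N m) (z : ZZ m) : C.uv (fp f) (flp z) = -C.uv f z := by
  simp [uv, flp, C.Jh_fp, C.nr_fp, add_comm]
omit H in
lemma ge_fp (f : FF n N m) (z : ZZ m) : C.ge (fp f) (flp z) = (C.ge f z).swap := by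
  rw [ge, C.uv_fp, neg_neg]; rfl
omit H in
lemma Ss_fp (f : FF n N m) (z : ZZ m) : C.Ss (fp f) (flp z) = -C.Su f z := by
  rw [Ss, Su, C.ge_fp, neg_neg]; rfl

omit H in
lemma Dm_fg (hf : C.Frm f) (hg : C.Deck g) : C.Dm (fg g f) = C.Dm f := by
  rw [Dm, Dm, C.Jh_fg hf hg]
omit H in
lemma uv_fg (hf : C.Frm f) (hg : C.Deck g) : C.uv (fg g f) = C.uv f := by
  funext z; rw [uv, uv, C.Jh_fg hf hg, C.nr_fg hf hg]
lemma ge_fg (hf : C.Frm f) (hg : C.Deck g) (hz : z ∈ C.Dm f) :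
    C.ge (fg g f) z = (C.act g (C.ge f z).1, C.act g (C.ge f z).2) := by
  have hx := C.un_uv H hf hz
  rw [ge, ge, C.uv_fg hf hg, C.hy_fg hf hg, C.act_ep H.a_pos hg hx, C.act_ep H.a_pos hg hx.neg]
lemma bq_fg (hf : C.Frm f) (hg : C.Deck g) (hξ : ξ ≠ 0) :
    C.bq (fg g f) (C.act g ξ) = C.bq f ξ := by
  funext q
  rw [bq, bq, C.hy_fg hf hg, show (fg g f).1 = g f.1 from rfl, C.b_act H.a_pos hg hξ,
    C.b_act H.a_pos hg hξ]
  ring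
lemma pq_fg (hf : C.Frm f) (hg : C.Deck g) (hξ : ξ ≠ 0) :
    C.pq (fg g f) (C.act g ξ) = C.pq f ξ := by
  funext q; rw [pq, pq, C.Jh_fg hf hg, C.hy_fg hf hg, C.W_act H.a_pos hg hξ]
lemma HH_fg (hf : C.Frm f) (hg : C.Deck g) (hξ : ξ ≠ 0) :
    C.HH (fg g f) (C.act g ξ) = C.HH f ξ := by
  funext q; rw [HH, HH, C.pq_fg H hf hg hξ]
lemma gs_fg (hf : C.Frm f) (hg : C.Deck g) (hξ : ξ ≠ 0) :
    C.gs (fg g f) (C.act g ξ) = C.gs f ξ := by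
  funext q; rw [gs, gs, C.pq_fg H hf hg hξ]
lemma gu_fg (hf : C.Frm f) (hg : C.Deck g) (hξ : ξ ≠ 0) :
    C.gu (fg g f) (C.act g ξ) = C.gu f ξ := by
  funext q; rw [gu, gu, C.pq_fg H hf hg hξ]
lemma Bs_fg (hf : C.Frm f) (hg : C.Deck g) (hξ : ξ ≠ 0) :
    C.Bs (fg g f) (C.act g ξ) = C.Bs f ξ := by
  funext q; rw [Bs, Bs, C.Jh_fg hf hg, C.hy_fg hf hg, hg.pr_eq, C.W_act H.a_pos hg hξ]
lemma aa_fg (α : TT N → ℝ) (c : ℝ) (hf : C.Frm f) (hg : C.Deck g) (hξ : ξ ≠ 0) :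
    C.aa α c (fg g f) (C.act g ξ) = C.aa α c f ξ := by
  funext q
  rw [aa, aa, kq, kq, C.Bs_fg H hf hg hξ, C.hy_fg hf hg, hg.pr_eq, C.W_act H.a_pos hg hξ]
lemma Fw_fg (hg : C.Deck g) (h : C.Fw f ξ) : C.Fw (fg g f) (C.act g ξ) := by
  refine ⟨C.norm_act H.a_pos hg (bas_ne0 h.1), ?_⟩
  rw [show (fg g f).1 = g f.1 from rfl, C.W_act H.a_pos hg (bas_ne0 h.1)]
  exact h.2
lemma Ss_fg (hf : C.Frm f) (hg : C.Deck g) (hz : z ∈ C.Dm f) : C.Ss (fg g f) z = C.Ss f z := by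
  rw [Ss, Ss, C.ge_fg H hf hg hz, C.HH_fg H hf hg (bas_ne0 (C.ge_GG H hf hz).1)]
lemma Su_fg (hf : C.Frm f) (hg : C.Deck g) (hz : z ∈ C.Dm f) : C.Su (fg g f) z = C.Su f z := by
  rw [Su, Su, C.ge_fg H hf hg hz, C.HH_fg H hf hg (bas_ne0 (C.ge_GG H hf hz).2.1)]

end Crest.Agent.N221.Cov
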