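import Crest.Agent.N221.Ch.Bas

/-! Row 221, block Ch: crossing lemma, uniform radius, transition maps. -/

set_option autoImplicit false
set_option linter.unusedSectionVars false
set_option linter.unusedVariables false

open MeasureTheory Set Filter Topology Metric
open scoped ContDiff RealInnerProductSpace ENNReal
open Crest.GeometryTopology.Submanifold
open Crest.Agent.R241.DDefs Crest.Agent.R241.D2
open Crest.Agent.R208.J Crest.Agent.R208.L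

noncomputable section

namespace Crest.Agent.N221.Cov

variable {n N m : ℕ} {a : ℝ} {S : Set (Euc N)} {G : Geo n N (-(a ^ 2)) S} (C : Cov G)
variable {f f' f'' : FF n N m} {z z' : ZZ m} {x y y' ξ η : Euc n} {v u u' : Euc N} {q q' : Euc m}
  {g : Euc n → Euc n} {s t : ℝ}
omit C in
lemma scalar_ift {P : Type} [NormedAddCommGroup P] [NormedSpace ℝ P] [CompleteSpace P]
    {Φ : P × ℝ → ℝ} {p : P} {t c : ℝ} (hΦ : ContDiffAt ℝ ∞ Φ (p, t))
    (hd : HasDerivAt (fun t => Φ (p, t)) c t) (hc : c ≠ 0) :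
    ∃ τ : P → ℝ, ContDiffAt ℝ ∞ τ p ∧ τ p = t ∧ ∀ᶠ x in 𝓝 p, Φ (x, τ x) = Φ (p, t) := by
  have hi : (fderiv ℝ Φ (p, t) ∘L ContinuousLinearMap.inr ℝ P ℝ).IsInvertible := by
    refine ⟨ContinuousLinearEquiv.unitsEquivAut ℝ (Units.mk0 c hc), ?_⟩
    have h1 := (hΦ.differentiableAt (by simp)).hasFDerivAt.comp t (hasFDerivAt_prodMk_right p t)
    rw [h1.unique hd.hasFDerivAt]
    ext; simp
  exact ⟨_, hΦ.contDiffAt_implicitFunction (by simp) hi, hΦ.implicitFunction_apply_self (by simp) hi,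
    hΦ.eventually_apply_implicitFunction (by simp) hi⟩

lemma contDiffAt_vel (hu : u ∈ G.T (C.pr y)) (t : ℝ) :
    ContDiffAt ℝ ∞ (fun k : Euc n × Euc N × ℝ => C.vel k.1 k.2.1 k.2.2) (y, u, t) :=
  ((contDiffAt_fl' G (q := (C.pr y, u)) ⟨C.pr_mem y, hu⟩ t).comp (y, u, t)
    (f := fun k : Euc n × Euc N × ℝ => ((C.pr k.1, k.2.1), k.2.2))
    (((C.pr_smooth.contDiffAt.comp _ contDiffAt_fst).prodMk (by fun_prop)).prodMk
      (by fun_prop))).snd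

lemma inner_nr_pos (hf : C.Frm f) : 0 < ⟪u, C.nr f q⟫ ↔ 0 < ⟪C.nr0 f (C.hy f q), u⟫ := by
  rw [nr, real_inner_smul_right, real_inner_comm,
    mul_pos_iff_of_pos_left (inv_pos.2 (norm_pos_iff.2 (C.nr0_ne hf.un _)))]

variable (H : Hyp n N a S) (hm : m + 1 = n)
include H hm

/-- CROSSING LEMMA.  Implicit function theorem (`ContDiffAt.implicitFunction`) for
`⟪lg x (gd y u t), v⟫ = 0` (`hasDerivAt_cross`, `uv_side`); `Z = (L* lg x y', J* u')`;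
`eq_hy`, `uv_eq`. -/
lemma loc_cross (hf : C.Frm f) (hz : z ∈ C.Dm f) (hu : C.Un y u)
    (h1 : C.hy f z.1 = C.gd y u t) (h2 : C.uv f z = C.vel y u t) :
    ∃ (τ : FF n N m × Euc n × Euc N → ℝ) (Z : FF n N m × Euc n × Euc N → ZZ m),
      ContDiffAt ℝ ∞ τ (f, y, u) ∧ ContDiffAt ℝ ∞ Z (f, y, u) ∧ τ (f, y, u) = t ∧
      Z (f, y, u) = z ∧ ∀ᶠ k in 𝓝 (f, y, u), C.Frm k.1 → C.Un k.2.1 k.2.2 →
        C.hy k.1 (Z k).1 = C.gd k.2.1 k.2.2 (τ k) ∧ C.uv k.1 (Z k) = C.vel k.2.1 k.2.2 (τ k) := by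
  have hs := (C.inner_nr_pos hf).1 (C.uv_side H hf hz)
  rw [h1, h2] at hs
  have hg : ContDiff ℝ ∞ fun k : (FF n N m × Euc n × Euc N) × ℝ => C.gd k.1.2.1 k.1.2.2 k.2 :=
    C.contDiff_gd.comp (f := fun k : (FF n N m × Euc n × Euc N) × ℝ => (k.1.2.1, k.1.2.2, k.2))
      (by fun_prop)
  have hl : ContDiff ℝ ∞ fun k : (FF n N m × Euc n × Euc N) × ℝ =>
      C.lg k.1.1.1 (C.gd k.1.2.1 k.1.2.2 k.2) :=
    C.lg_smooth.comp (f := fun k : (FF n N m × Euc n × Euc N) × ℝ =>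
      (k.1.1.1, C.gd k.1.2.1 k.1.2.2 k.2)) (ContDiff.prodMk (by fun_prop) hg)
  obtain ⟨τ, t1, t2, t3⟩ := scalar_ift (p := (f, y, u)) (t := t)
    (Φ := fun k : (FF n N m × Euc n × Euc N) × ℝ => ⟪C.lg k.1.1.1 (C.gd k.1.2.1 k.1.2.2 k.2), k.1.1.2.1⟫)
    (hl.inner ℝ (by fun_prop)).contDiffAt (C.hasDerivAt_cross f hu.mem t) hs.ne'
  have e0 : ⟪C.lg f.1 (C.gd y u t), f.2.1⟫ = 0 := h1 ▸ C.inner_lg_hy hf z.1
  have c0 : ContDiffAt ℝ ∞ (fun k : FF n N m × Euc n × Euc N => (k, τ k)) (f, y, u) :=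
    contDiffAt_id.prodMk t1
  set Q : FF n N m × Euc n × Euc N → Euc m := fun k =>
    k.1.2.2.adjoint (C.lg k.1.1 (C.gd k.2.1 k.2.2 (τ k))) with hQ
  have cQ : ContDiffAt ℝ ∞ Q (f, y, u) :=
    (contDiff_adj.contDiffAt.comp _ (f := fun k : FF n N m × Euc n × Euc N => k.1.2.2)
      (by fun_prop)).clm_apply (hl.contDiffAt.comp (f, y, u) c0)
  have cV : ContDiffAt ℝ ∞ (fun k : FF n N m × Euc n × Euc N => C.vel k.2.1 k.2.2 (τ k)) (f, y, u) :=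
    ContDiffAt.comp (f := fun k : FF n N m × Euc n × Euc N => (k.2.1, k.2.2, τ k))
      (g := fun k : Euc n × Euc N × ℝ => C.vel k.1 k.2.1 k.2.2) (f, y, u)
      (by rw [t2]; exact C.contDiffAt_vel hu.mem t) (by fun_prop)
  have q0 : Q (f, y, u) = z.1 := by simp only [hQ, t2, ← h1, C.adj_lg_hy hf]
  have cJ : ContDiffAt ℝ ∞ (fun k : FF n N m × Euc n × Euc N => C.Jh k.1 (Q k)) (f, y, u) :=
    C.contDiff_Jh.contDiffAt.comp _ (f := fun k : FF n N m × Euc n × Euc N => (k.1, Q k))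
      (contDiffAt_fst.prodMk cQ)
  have cN : ContDiffAt ℝ ∞ (fun k : FF n N m × Euc n × Euc N =>
      C.nr0 k.1 (C.gd k.2.1 k.2.2 (τ k))) (f, y, u) :=
    C.contDiff_nr0.contDiffAt.comp _
      (f := fun k : FF n N m × Euc n × Euc N => (k.1, C.gd k.2.1 k.2.2 (τ k)))
      (contDiffAt_fst.prodMk (hg.contDiffAt.comp (f, y, u) c0))
  refine ⟨τ, fun k => (Q k, (C.Jh k.1 (Q k)).adjoint (C.vel k.2.1 k.2.2 (τ k))), t1,
    cQ.prodMk ((contDiff_adj.contDiffAt.comp _ cJ).clm_apply cV), t2, ?_, ?_⟩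
  · simp only [q0, t2, ← h2, C.adj_uv H hf]
  · have := (cN.inner ℝ cV).continuousAt.eventually (lt_mem_nhds (by simpa only [t2] using hs))
    filter_upwards [t3, this] with k k1 k2 hk hku
    have e1 : C.hy k.1 (Q k) = C.gd k.2.1 k.2.2 (τ k) := C.eq_hy hk hm (k1.trans e0)
    exact ⟨e1, (C.uv_eq H hm hk (e1 ▸ hku.vel C _) ((C.inner_nr_pos hk).2 (e1 ▸ k2))).2⟩

omit hm in
/-- uniformity principle: a deck invariant property that holds near the centre of every frame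
holds on a uniform ball (`exists_deck`, `isCompact_frm`, tube lemma) -/
lemma unif {X E : Type} [TopologicalSpace X] [NormedAddCommGroup E] {K : Set X}
    (hK : IsCompact K) {p : FF n N m → X → E → Prop} {A : FF n N m → X → Prop}
    (hA : IsClosed {k : FF n N m × X | C.Frm k.1 ∧ A k.1 k.2})
    (hloc : ∀ f x, C.Frm f → x ∈ K → A f x →
      ∀ᶠ k : (FF n N m × X) × E in 𝓝 ((f, x), 0), C.Frm k.1.1 → A k.1.1 k.1.2 → p k.1.1 k.1.2 k.2)
    (hinv : ∀ f x g, C.Frm f → x ∈ K → A f x → C.Deck g →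
      ∃ x' ∈ K, A (fg g f) x' ∧ ∀ e, p (fg g f) x' e → p f x e) :
    ∃ r > 0, ∀ f x e, C.Frm f → x ∈ K → A f x → ‖e‖ ≤ r → p f x e := by
  obtain ⟨D, -, hD⟩ := C.exists_deck
  have hc := ((C.isCompact_frm (m := m) D).prod hK).inter_right hA
  have := hc.eventually_forall_of_forall_eventually (x₀ := (0 : E))
    (P := fun e k => C.Frm k.1 → A k.1 k.2 → p k.1 k.2 e) fun k hk =>
      (continuous_swap.tendsto ((0 : E), k)).eventually (hloc k.1 k.2 hk.2.1 hk.1.2 hk.2.2)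
  obtain ⟨r, hr, h⟩ := Metric.eventually_nhds_iff_ball.1 this
  refine ⟨r / 2, half_pos hr, fun f x e hf hx ha he => ?_⟩
  obtain ⟨g, hg, hgD⟩ := hD f.1
  obtain ⟨x', hx', ha', hp⟩ := hinv f x g hf hx ha hg
  exact hp e (h e (mem_ball_zero_iff.2 (by linarith)) (fg g f, x')
    ⟨⟨⟨hf.fg C hg, hgD⟩, hx'⟩, hf.fg C hg, ha'⟩ (hf.fg C hg) ha')

omit hm in
lemma unif0 {E : Type} [NormedAddCommGroup E] {p : FF n N m → E → Prop}
    (hloc : ∀ f, C.Frm f → ∀ᶠ k : FF n N m × E in 𝓝 (f, 0), C.Frm k.1 → p k.1 k.2)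
    (hinv : ∀ f g e, C.Frm f → C.Deck g → p (fg g f) e → p f e) :
    ∃ r > 0, ∀ f e, C.Frm f → ‖e‖ ≤ r → p f e := by
  obtain ⟨r, hr, h⟩ := C.unif H (X := Unit) (K := univ) isCompact_univ (p := fun f _ e => p f e)
    (A := fun _ _ => True) (by simpa using C.isClosed_frm.preimage continuous_fst)
    (fun f x hf _ _ => ((show Continuous fun k : (FF n N m × Unit) × E => (k.1.1, k.2) by
      fun_prop).tendsto ((f, x), 0)).eventually (hloc f hf) |>.mono fun k hk h1 _ => hk h1)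
    (fun f x g hf _ _ hg => ⟨x, trivial, trivial, fun e => hinv f g e hf hg⟩)
  exact ⟨r, hr, fun f e hf he => h f () e hf trivial trivial he⟩

omit hm in
/-- uniform transversality -/
lemma exists_trv : ∃ r > 0, ∀ (f : FF n N m) (z : ZZ m) (t : ℝ), C.Frm f → ‖z‖ ≤ r → |t| ≤ r →
    0 < ⟪C.nr0 f (C.gd (C.hy f z.1) (C.uv f z) t), C.vel (C.hy f z.1) (C.uv f z) t⟫ := by
  obtain ⟨r, hr, h⟩ := C.unif0 H (E := ZZ m × ℝ) (p := fun (f : FF n N m) e => ‖e.1.2‖ < 1 →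
    0 < ⟪C.nr0 f (C.gd (C.hy f e.1.1) (C.uv f e.1) e.2), C.vel (C.hy f e.1.1) (C.uv f e.1) e.2⟫)
    (fun f hf => by
      have h0 : (0 : ZZ m) ∈ C.Dm f := C.mem_Dm H hf (by simp)
      have c1 : ContinuousAt (fun k : FF n N m × ZZ m × ℝ =>
          (C.hy k.1 k.2.1.1, C.uv k.1 k.2.1, k.2.2)) (f, 0) :=
        (C.contDiff_hy.continuous.continuousAt.comp
          (f := fun k : FF n N m × ZZ m × ℝ => (k.1, k.2.1.1)) (by fun_prop)).prodMk
        (((C.contDiffAt_uv H hf h0).continuousAt.comp_of_eq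
          (f := fun k : FF n N m × ZZ m × ℝ => (k.1, k.2.1)) (by fun_prop) rfl).prodMk (by fun_prop))
      have c2 := (C.contDiffAt_vel (C.un_uv H hf h0).mem 0).continuousAt.comp_of_eq c1 rfl
      have c3 := C.contDiff_nr0.continuous.continuousAt.comp
        (continuousAt_fst.prodMk (C.continuous_gd.continuousAt.comp c1))
      refine ((c3.inner (𝕜 := ℝ) c2).eventually (lt_mem_nhds ?_)).mono fun k hk _ _ => hk
      simp [C.gd_zero, C.vel_zero, C.hy_zero, C.uv_zero H hf, C.nr0_self hf.un, hf.un.norm])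
    (fun f g e hf hg h he => by
      have h1 := h he
      rwa [C.hy_fg hf hg, C.uv_fg hf hg, hg.gd_eq C (C.un_uv H hf (C.mem_Dm H hf he)).mem,
        hg.vel_eq C, C.nr0_fg hg] at h1)
  refine ⟨min r (1 / 2), by positivity, fun f z t hf hz ht => h f (z, t) hf
    (max_le (hz.trans (min_le_left _ _)) (ht.trans (min_le_left _ _))) ?_⟩
  linarith [norm_snd_le z, min_le_right r (1 / 2)]

/-- injectivity: `same_geod`, the two points are at distance `|t| ≤ 2 r`, and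
`t ↦ ⟪lg x (gd y u t), v⟫` has positive derivative for `‖z‖ ≤ r`, `|t| ≤ 2 r` -/
lemma exists_inj : ∃ r > 0, ∀ f : FF n N m, C.Frm f → InjOn (C.ge f) (closedBall 0 r) := by
  obtain ⟨r, hr, h⟩ := C.exists_trv (m := m) H
  refine ⟨min (r / 2) (1 / 2), by positivity, fun f hf z hz z' hz' e => ?_⟩
  rw [mem_closedBall_zero_iff, le_min_iff] at hz hz'
  have u1 := C.un_uv H hf (C.mem_Dm H hf (z := z) (by linarith [norm_snd_le z]))
  have u2 := C.un_uv H hf (C.mem_Dm H hf (z := z') (by linarith [norm_snd_le z']))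
  obtain ⟨e1, e2⟩ := C.same_geod H u1 u2 (congrArg Prod.fst e) (congrArg Prod.snd e)
  set t := C.b (C.ep (C.hy f z.1) (C.uv f z)) (C.hy f z.1) -
    C.b (C.ep (C.hy f z.1) (C.uv f z)) (C.hy f z'.1)
  have ht : |t| ≤ r := by
    have := C.dd_triangle H.a_pos.le (C.hy f z.1) f.1 (C.hy f z'.1)
    rw [C.dd_comm _ f.1, C.dd_hy hf, C.dd_hy hf] at this
    rw [← u1.dd_gd_zero C t, ← e1]
    linarith [norm_fst_le z, norm_fst_le z']
  have hmono : StrictMonoOn (fun t => ⟪C.lg f.1 (C.gd (C.hy f z.1) (C.uv f z) t), f.2.1⟫)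
      (Icc (-r) r) :=
    strictMonoOn_of_deriv_pos (convex_Icc _ _)
      (fun t _ => (C.hasDerivAt_cross f u1.mem t).continuousAt.continuousWithinAt) fun t ht => by
        rw [(C.hasDerivAt_cross f u1.mem t).deriv]
        exact h f z t hf (by linarith) (abs_le.2 (mem_Icc.1 (interior_subset ht)))
  have t0 : t = 0 := hmono.injOn (abs_le.1 ht) ⟨by linarith, hr.le⟩ (by
    simp only [← e1, C.gd_zero, C.inner_lg_hy hf])
  rw [t0, C.gd_zero] at e1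
  rw [t0, C.vel_zero] at e2
  have e3 := C.hy_inj hf e1
  exact Prod.ext e3.symm (by rw [← C.adj_uv H hf z, ← C.adj_uv H hf z', e2, e3])

omit hm in
lemma isClosed_Fw : IsClosed {k : FF n N m × Euc n | C.Frm k.1 ∧ C.Fw k.1 k.2} := by
  have h1 : IsClosed {k : FF n N m × Euc n | ‖k.2‖ = 1} :=
    isClosed_eq (by fun_prop) continuous_const
  have h2 : ContinuousOn (fun k : FF n N m × Euc n => ⟪C.W k.2 k.1.1, k.1.2.1⟫) {k | ‖k.2‖ = 1} :=
    ContinuousOn.inner (𝕜 := ℝ) ((C.continuousOn_W H.a_pos).comp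
      (f := fun k : FF n N m × Euc n => (k.2, k.1.1)) (by fun_prop) fun k hk => bas_ne0 hk)
      (by fun_prop)
  exact (C.isClosed_frm.preimage continuous_fst).inter
    (h2.preimage_isClosed_of_isClosed h1 (isClosed_Ici (a := (1 / 2 : ℝ))))

omit hm in
lemma continuousAt_W (hξ : ξ ≠ 0) (y : Euc n) :
    ContinuousAt (fun p : Euc n × Euc n => C.W p.1 p.2) (ξ, y) :=
  (C.continuousOn_W H.a_pos).continuousAt
    ((isOpen_ne_fun continuous_fst continuous_const).mem_nhds hξ)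

lemma exists_rad : ∃ r, C.Rad m r := by
  have ha := H.a_pos
  obtain ⟨r1, p1, h1⟩ := C.exists_inj H hm
  obtain ⟨r2, p2, h2⟩ := C.unif0 H (p := fun (f : FF n N m) q => ‖C.Jh f q‖ ≤ 2)
    (fun f hf => (C.contDiff_Jh.continuous.norm.continuousAt.eventually (gt_mem_nhds (a := 2) (by
      simp only [C.Jh_zero hf]
      exact (ContinuousLinearMap.opNorm_le_bound _ zero_le_one fun e => by
        rw [hf.iso, one_mul]).trans_lt one_lt_two))).mono fun k hk _ => hk.le)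
    fun f g e hf hg h => by rwa [C.Jh_fg hf hg] at h
  obtain ⟨r3, p3, h3⟩ := C.unif0 H (p := fun (f : FF n N m) (z : ZZ m) => z ∈ C.Dm f →
      1 / 2 ≤ ⟪C.W (C.ge f z).1 f.1, f.2.1⟫)
    (fun f hf => by
      have h0 : (0 : ZZ m) ∈ C.Dm f := C.mem_Dm H hf (by simp)
      have c1 := (C.continuousOn_ge H (f, 0) ⟨hf, h0⟩).fst
      have c2 := (C.continuousAt_W H (bas_ne0 (C.ge_GG H hf h0).1) f.1).comp_continuousWithinAt_of_eq
        (c1.prodMk continuous_fst.fst.continuousWithinAt) rfl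
      have c3 := (c2.inner (𝕜 := ℝ) continuous_fst.snd.fst.continuousWithinAt).eventually
        (lt_mem_nhds (a := 1 / 2) (by
          simp only [Function.comp, C.ge_zero H hf, C.W_ep_self ha hf.un,
            real_inner_self_eq_norm_sq, hf.un.norm]; norm_num))
      exact (eventually_nhdsWithin_iff.1 c3).mono fun k hk k1 k2 => (hk ⟨k1, k2⟩).le)
    fun f g z hf hg h hz => by
      have := h (by rwa [C.Dm_fg hf hg])
      rwa [C.ge_fg H hf hg hz, show (fg g f).1 = g f.1 from rfl,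
        C.W_act ha hg (bas_ne0 (C.ge_GG H hf hz).1)] at this
  obtain ⟨r4, p4, h4⟩ := C.unif H (K := sphere (0 : Euc n) 1) (isCompact_sphere _ _)
    (p := fun (f : FF n N m) ξ q => 1 / 4 ≤ ⟪C.W ξ (C.hy f q), C.nr f q⟫) (A := C.Fw)
    (C.isClosed_Fw H) (fun f ξ hf _ hξ => by
      have c1 := (C.continuousAt_W H (bas_ne0 hξ.1) (C.hy f 0)).comp_of_eq
        (f := fun k : (FF n N m × Euc n) × Euc m => (k.1.2, C.hy k.1.1 k.2)) (x := ((f, ξ), 0))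
        (ContinuousAt.prodMk (by fun_prop) (C.contDiff_hy.continuous.continuousAt.comp
          (f := fun k : (FF n N m × Euc n) × Euc m => (k.1.1, k.2)) (by fun_prop))) rfl
      have c2 := (C.contDiffAt_nr hf 0).continuousAt.comp_of_eq
        (f := fun k : (FF n N m × Euc n) × Euc m => (k.1.1, k.2)) (x := ((f, ξ), 0)) (by fun_prop) rfl
      refine ((c1.inner (𝕜 := ℝ) c2).eventually (lt_mem_nhds (a := 1 / 4) ?_)).mono fun k hk _ _ => hk.le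
      simp only [Function.comp, C.hy_zero, C.nr_zero hf]
      linarith [hξ.2])
    fun f ξ g hf _ hξ hg => ⟨_, mem_sphere_zero_iff_norm.2 (C.Fw_fg H hg hξ).1, C.Fw_fg H hg hξ,
      fun q h => by rwa [C.hy_fg hf hg, C.nr_fg hf hg, C.W_act ha hg (bas_ne0 hξ.1)] at h⟩
  obtain ⟨r5, p5, h5⟩ := C.unif0 H (p := fun (f : FF n N m) q =>
      ‖ContinuousLinearMap.compL ℝ (Euc m) (Euc N) (Euc N) (G.P (C.pr (C.hy f q))) ∘L
        fderiv ℝ (C.Jh f) q‖ ≤ a / 32)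
    (fun f hf => by
      have c1 : ContDiff ℝ ∞ fun k : FF n N m × Euc m => fderiv ℝ (C.Jh k.1) k.2 :=
        ContDiff.fderiv (f := fun (k : FF n N m × Euc m) q => C.Jh k.1 q) (g := Prod.snd) (n := ∞)
          (C.contDiff_Jh.comp (f := fun w : (FF n N m × Euc m) × Euc m => (w.1.1, w.2))
            (by fun_prop)) contDiff_snd (by simp)
      have c2 := (((ContinuousLinearMap.compL ℝ (Euc m) (Euc N) (Euc N)).continuous.comp
        (G.contDiff_P.continuous.comp (C.pr_smooth.continuous.comp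
          C.contDiff_hy.continuous))).clm_comp c1.continuous).norm
      refine (c2.continuousAt.eventually (gt_mem_nhds (a := a / 32) ?_)).mono fun k hk _ => hk.le
      have : ContinuousLinearMap.compL ℝ (Euc m) (Euc N) (Euc N) (G.P (C.pr (C.hy f 0))) ∘L
          fderiv ℝ (C.Jh f) 0 = 0 := by
        refine ContinuousLinearMap.ext fun e => ContinuousLinearMap.ext fun e' => ?_
        rw [C.hy_zero]
        exact C.P_fderiv_Jh_zero hf e e'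
      simp only [Function.comp, this, norm_zero]
      positivity)
    fun f g e hf hg h => by rwa [C.pr_hy_fg hf hg, C.Jh_fg hf hg] at h
  obtain ⟨r, p, q0, q1, q2, q3, q4, q5⟩ : ∃ r : ℝ, 0 < r ∧ r ≤ 1 / 4 ∧ 2 * r ≤ r1 ∧ 2 * r ≤ r2 ∧
      2 * r ≤ r3 ∧ 2 * r ≤ r4 ∧ 2 * r ≤ r5 := by
    refine ⟨min (min (min (1 / 2) r1) (min r2 r3)) (min r4 r5) / 2, by positivity, ?_⟩
    simp only [mul_div_cancel₀ _ (two_ne_zero (α := ℝ)), div_le_iff₀ (two_pos (α := ℝ))]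
    refine ⟨?_, ?_, ?_, ?_, ?_, ?_⟩ <;> simp only [min_le_iff, le_refl, true_or, or_true]
    norm_num
  have sd : ∀ f : FF n N m, C.Frm f → ∀ ξ, C.Fw f ξ → ∀ q, ‖q‖ ≤ 2 * r →
      1 / 4 ≤ ⟪C.W ξ (C.hy f q), C.nr f q⟫ := fun f hf ξ hξ q hq =>
    h4 f ξ q hf (mem_sphere_zero_iff_norm.2 hξ.1) hξ (hq.trans q4)
  refine ⟨r, p, q0, fun f hf => (h1 f hf).mono (closedBall_subset_closedBall q1),
    fun f hf q hq => h2 f q hf (hq.trans q2), fun f hf z hz => ?_, sd, fun f hf ξ hξ q hq e => ?_⟩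
  · have hz' := C.mem_Dm H hf (z := z) (by linarith [norm_snd_le z])
    exact ⟨(C.ge_GG H hf hz').1, h3 f z hf (hz.trans q3) hz'⟩
  · have k1 := C.inner_HH_le H hf (bas_ne0 hξ.1) q e
    have k2 : ‖G.P (C.pr (C.hy f q)) ∘L fderiv ℝ (C.Jh f) q e‖ ≤ a / 32 * ‖e‖ :=
      (ContinuousLinearMap.le_opNorm (ContinuousLinearMap.compL ℝ (Euc m) (Euc N) (Euc N)
        (G.P (C.pr (C.hy f q))) ∘L fderiv ℝ (C.Jh f) q) e).trans
        (mul_le_mul_of_nonneg_right (h5 f q hf (hq.trans q5)) (norm_nonneg _))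
    have k3 := mul_le_mul_of_nonneg_right (sd f hf ξ hξ q hq) (norm_nonneg e)
    have k4 := mul_le_mul_of_nonneg_right k2 (norm_nonneg e)
    have k5 := mul_le_mul_of_nonneg_left (pow_le_pow_left₀ (by positivity) k3 2) ha.le
    nlinarith

lemma rad : C.Rad m (C.rr m) := Classical.epsilon_spec (C.exists_rad H hm)

lemma rr_pos : 0 < C.rr m := (C.rad H hm).pos

lemma Dm_of_le (hf : C.Frm f) (hz : ‖z‖ ≤ 2 * C.rr m) : z ∈ C.Dm f :=
  C.mem_Dm H hf (by linarith [norm_snd_le z, (C.rad H hm).le])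

lemma Dm_lt (hf : C.Frm f) (hz : ‖z‖ < C.rr m) : z ∈ C.Dm f :=
  C.Dm_of_le H hm hf (by linarith [C.rr_pos H hm])

lemma back (hf : C.Frm f) (hz : ‖z‖ ≤ 2 * C.rr m) : C.Fw (fp f) (C.ge f z).2 := by
  have := (C.rad H hm).front _ (hf.fp C) (flp z) (by rwa [norm_flp])
  rwa [C.ge_fp] at this

lemma ge_gs (hf : C.Frm f) (hξ : C.Fw f ξ) (hq : ‖q‖ ≤ 2 * C.rr m) :
    C.gs f ξ q ∈ C.Dm f ∧ C.uv f (C.gs f ξ q) = C.W ξ (C.hy f q) ∧ (C.ge f (C.gs f ξ q)).1 = ξ :=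
  C.gs_spec H hm hf hξ.1 (lt_of_lt_of_le (by norm_num) ((C.rad H hm).side f hf ξ hξ q hq))

lemma ge_gu (hf : C.Frm f) (hη : C.Fw (fp f) η) (hq : ‖q‖ ≤ 2 * C.rr m) :
    C.gu f η q ∈ C.Dm f ∧ C.uv f (C.gu f η q) = -C.W η (C.hy f q) ∧ (C.ge f (C.gu f η q)).2 = η :=
  C.gu_spec H hm hf hη.1 (lt_of_lt_of_le (by norm_num) ((C.rad H hm).side _ (hf.fp C) η hη q hq))

lemma Bs_bd (hf : C.Frm f) (hξ : C.Fw f ξ) (hq : ‖q‖ ≤ 2 * C.rr m) (e : Euc m) :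
    ‖e‖ ≤ 4 * ‖C.Bs f ξ q e‖ ∧ ‖C.Bs f ξ q e‖ ≤ 2 * ‖e‖ := by
  have h1 := C.le_Bs H hf (bas_ne0 hξ.1) q e
  have h2 := mul_le_mul_of_nonneg_right
    (((C.rad H hm).side f hf ξ hξ q hq).trans (le_abs_self _)) (norm_nonneg e)
  exact ⟨by linarith, (C.Bs_le H (bas_ne0 hξ.1) f q e).trans ((ContinuousLinearMap.le_opNorm _ _).trans
    (mul_le_mul_of_nonneg_right ((C.rad H hm).J_le f hf q hq) (norm_nonneg _)))⟩

lemma ch_ge (hf : C.Frm f) (hz : ‖z‖ < 2 * C.rr m) : C.ch f (C.ge f z) = z :=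
  (((C.rad H hm).inj f hf).mono ball_subset_closedBall).leftInvOn_invFunOn (mem_ball_zero_iff.2 hz)

lemma Tf_eq (hf' : C.Frm f') (hz' : ‖z'‖ < 2 * C.rr m) (h : C.ge f' z' = C.ge f z) :
    C.Tf f f' z = z' := by rw [Tf, ← h, C.ch_ge H hm hf' hz']

lemma mem_dm (hf' : C.Frm f') (hz : ‖z‖ < C.rr m) (hz' : ‖z'‖ < C.rr m)
    (h : C.ge f' z' = C.ge f z) : z ∈ C.dm f f' ∧ C.Tf f f' z = z' :=
  ⟨⟨hz, z', mem_ball_zero_iff.2 hz', h⟩, C.Tf_eq H hm hf' (by linarith [C.rr_pos H hm]) h⟩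

lemma Tf_spec (hf' : C.Frm f') (hz : z ∈ C.dm f f') :
    ‖C.Tf f f' z‖ < C.rr m ∧ C.ge f' (C.Tf f f' z) = C.ge f z := by
  obtain ⟨h1, z', h2, h3⟩ := hz
  rw [mem_ball_zero_iff] at h2
  rw [(C.mem_dm H hm hf' h1 h2 h3).2]
  exact ⟨h2, h3⟩

lemma Tf_self (hf : C.Frm f) (hz : ‖z‖ < C.rr m) :
    z ∈ C.dm f f ∧ C.Tf f f z = z ∧ C.tm f f z = 0 := by
  obtain ⟨h1, h2⟩ := C.mem_dm H hm hf hz hz rfl
  exact ⟨h1, h2, by rw [tm, h2, sub_self]⟩

lemma Tf_symm (hf : C.Frm f) (hf' : C.Frm f') (hz : z ∈ C.dm f f') :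
    C.Tf f f' z ∈ C.dm f' f ∧ C.Tf f' f (C.Tf f f' z) = z ∧
      C.tm f' f (C.Tf f f' z) = -C.tm f f' z := by
  obtain ⟨h1, h2⟩ := C.Tf_spec H hm hf' hz
  obtain ⟨h3, h4⟩ := C.mem_dm H hm hf h1 hz.1 h2.symm
  exact ⟨h3, h4, by rw [tm, tm, h4, h2, neg_sub]⟩

lemma Tf_comp (hf' : C.Frm f') (hf'' : C.Frm f'') (hz : z ∈ C.dm f f')
    (hz' : C.Tf f f' z ∈ C.dm f' f'') :
    z ∈ C.dm f f'' ∧ C.Tf f f'' z = C.Tf f' f'' (C.Tf f f' z) ∧
      C.tm f f'' z = C.tm f f' z + C.tm f' f'' (C.Tf f f' z) := by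
  obtain ⟨h1, h2⟩ := C.Tf_spec H hm hf' hz
  obtain ⟨h3, h4⟩ := C.Tf_spec H hm hf'' hz'
  obtain ⟨h5, h6⟩ := C.mem_dm H hm hf'' hz.1 h3 (h4.trans h2)
  exact ⟨h5, h6, by rw [tm, tm, tm, h6, h2]; ring⟩

lemma Tf_comp' (hf' : C.Frm f') (hf'' : C.Frm f'') (hz : z ∈ C.dm f f') (hz' : z ∈ C.dm f f'') :
    C.Tf f f' z ∈ C.dm f' f'' := by
  obtain ⟨h1, h2⟩ := C.Tf_spec H hm hf' hz
  obtain ⟨h3, h4⟩ := C.Tf_spec H hm hf'' hz'
  exact (C.mem_dm H hm hf'' h1 h3 (h4.trans h2.symm)).1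

/-- geometric meaning -/
lemma hy_Tf (hf : C.Frm f) (hf' : C.Frm f') (hz : z ∈ C.dm f f') :
    C.hy f' (C.Tf f f' z).1 = C.gd (C.hy f z.1) (C.uv f z) (C.tm f f' z) ∧
      C.uv f' (C.Tf f f' z) = C.vel (C.hy f z.1) (C.uv f z) (C.tm f f' z) := by
  obtain ⟨h1, h2⟩ := C.Tf_spec H hm hf' hz
  exact C.same_geod H (C.un_uv H hf (C.Dm_lt H hm hf hz.1))
    (C.un_uv H hf' (C.Dm_lt H hm hf' h1)) (congrArg Prod.fst h2.symm) (congrArg Prod.snd h2.symm)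

lemma Tf_of_gd (hf : C.Frm f) (hf' : C.Frm f') (hz : ‖z‖ < C.rr m) (hz' : ‖z'‖ < C.rr m)
    (h1 : C.hy f' z'.1 = C.gd (C.hy f z.1) (C.uv f z) t)
    (h2 : C.uv f' z' = C.vel (C.hy f z.1) (C.uv f z) t) :
    z ∈ C.dm f f' ∧ C.Tf f f' z = z' ∧ C.tm f f' z = t := by
  obtain ⟨h3, h4⟩ := C.ge_of_gd H (C.un_uv H hf (C.Dm_lt H hm hf hz)) h1 h2
  obtain ⟨h5, h6⟩ := C.mem_dm H hm hf' hz hz' h3
  exact ⟨h5, h6, by rw [tm, h6]; exact h4⟩

lemma Tf_zero (hf : C.Frm f) (hf' : C.Frm f') (h : C.Ov f f' t) :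
    0 ∈ C.dm f f' ∧ C.Tf f f' 0 = 0 ∧ C.tm f f' 0 = t := by
  have h0 : ‖(0 : ZZ m)‖ < C.rr m := by simpa using C.rr_pos H hm
  exact C.Tf_of_gd H hm hf hf' h0 h0
    (by simpa only [Prod.fst_zero, C.hy_zero, C.uv_zero H hf] using h.1)
    (by simpa only [Prod.fst_zero, C.hy_zero, C.uv_zero H hf, C.uv_zero H hf'] using h.2)

lemma dd_tm (hf : C.Frm f) (hf' : C.Frm f') (hz : z ∈ C.dm f f') :
    |(|C.tm f f' z| - C.dd f.1 f'.1)| ≤ ‖z.1‖ + ‖(C.Tf f f' z).1‖ := by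
  have ha := H.a_pos.le
  rw [← (C.un_uv H hf (C.Dm_lt H hm hf hz.1)).dd_gd_zero C (C.tm f f' z), ← (C.hy_Tf H hm hf hf' hz).1,
    ← C.dd_hy hf, ← C.dd_hy hf']
  have h1 := abs_le.1 (C.abs_dd_sub_le ha (C.hy f z.1) (C.hy f' (C.Tf f f' z).1) f'.1)
  have h2 := abs_le.1 (C.abs_dd_sub_le ha f'.1 (C.hy f z.1) f.1)
  rw [C.dd_comm _ f'.1, C.dd_comm _ f'.1] at h1
  rw [C.dd_comm _ f.1, C.dd_comm _ f.1] at h2
  exact abs_le.2 ⟨by linarith, by linarith⟩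

/-- LOCAL REPRESENTATION, jointly in both frames (with the margin `2 rr`) -/
lemma loc_rep (hf : C.Frm f) (hf' : C.Frm f') (hz : z ∈ C.Dm f) (hz' : ‖z'‖ < 2 * C.rr m)
    (h : C.ge f' z' = C.ge f z) :
    ∃ (T : (FF n N m × FF n N m) × ZZ m → ZZ m) (τ : (FF n N m × FF n N m) × ZZ m → ℝ),
      ContDiffAt ℝ ∞ T ((f, f'), z) ∧ ContDiffAt ℝ ∞ τ ((f, f'), z) ∧ T ((f, f'), z) = z' ∧
      ∀ᶠ k in 𝓝 ((f, f'), z), C.Frm k.1.1 → C.Frm k.1.2 →
        C.ge k.1.2 (T k) = C.ge k.1.1 k.2 ∧ C.Tf k.1.1 k.1.2 k.2 = T k ∧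
          C.tm k.1.1 k.1.2 k.2 = τ k := by
  have hu := C.un_uv H hf hz
  have hz2 := C.Dm_of_le H hm hf' hz'.le
  obtain ⟨e1, e2⟩ := C.same_geod H hu (C.un_uv H hf' hz2) (congrArg Prod.fst h.symm)
    (congrArg Prod.snd h.symm)
  obtain ⟨τ, Z, t1, z1, t2, z2, hev⟩ := C.loc_cross H hm hf' hz2 hu e1 e2
  have c : ContDiffAt ℝ ∞ (fun k : (FF n N m × FF n N m) × ZZ m =>
      (k.1.2, C.hy k.1.1 k.2.1, C.uv k.1.1 k.2)) ((f, f'), z) :=
    ContDiffAt.prodMk (by fun_prop) ((C.contDiff_hy.contDiffAt.comp _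
      (f := fun k : (FF n N m × FF n N m) × ZZ m => (k.1.1, k.2.1)) (by fun_prop)).prodMk
      ((C.contDiffAt_uv H hf hz).comp ((f, f'), z)
        (f := fun k : (FF n N m × FF n N m) × ZZ m => (k.1.1, k.2)) (by fun_prop)))
  have cZ := z1.comp ((f, f'), z) c
  refine ⟨_, _, cZ, t1.comp ((f, f'), z) c, z2, ?_⟩
  filter_upwards [c.continuousAt.eventually hev, ((show Continuous
      fun k : (FF n N m × FF n N m) × ZZ m => (k.1.1, k.2) by fun_prop).tendsto _).eventually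
      (C.ev_Dm H hf hz), cZ.continuousAt.norm.eventually (gt_mem_nhds (a := 2 * C.rr m)
        (by simpa only [Function.comp, z2] using hz'))] with k k1 k2 k3 h1 h2
  have hu' := C.un_uv H h1 k2
  obtain ⟨g1, g2⟩ := C.ge_of_gd H hu' (k1 h2 hu').1 (k1 h2 hu').2
  have g3 := C.Tf_eq H hm (f := k.1.1) (z := k.2) h2 k3 g1
  exact ⟨g1, g3, by rw [tm, g3]; exact g2⟩

lemma ev_dm (hf : C.Frm f) (hf' : C.Frm f') (hz : z ∈ C.dm f f') :
    ∀ᶠ k : (FF n N m × FF n N m) × ZZ m in 𝓝 ((f, f'), z), C.Frm k.1.1 → C.Frm k.1.2 →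
      k.2 ∈ C.dm k.1.1 k.1.2 := by
  obtain ⟨h1, h2⟩ := C.Tf_spec H hm hf' hz
  obtain ⟨T, τ, c1, -, c2, hev⟩ := C.loc_rep H hm hf hf' (C.Dm_lt H hm hf hz.1)
    (by linarith [C.rr_pos H hm]) h2
  filter_upwards [hev, c1.continuousAt.norm.eventually (gt_mem_nhds (a := C.rr m) (by simpa only [c2] using h1)),
    (continuous_snd.norm.tendsto ((f, f'), z)).eventually (gt_mem_nhds hz.1)] with k k1 k2 k3 h1 h2
  exact ⟨k3, _, mem_ball_zero_iff.2 k2, (k1 h1 h2).1⟩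

lemma isOpen_dm (hf : C.Frm f) (hf' : C.Frm f') : IsOpen (C.dm f f') :=
  isOpen_iff_mem_nhds.2 fun z hz => (((Continuous.prodMk_right (f, f')).tendsto z).eventually
    (C.ev_dm H hm hf hf' hz)).mono fun _ h => h hf hf'

lemma contDiffAt_Tf (hf : C.Frm f) (hf' : C.Frm f') (hz : z ∈ C.dm f f') :
    ContDiffAt ℝ ∞ (C.Tf f f') z := by
  obtain ⟨h1, h2⟩ := C.Tf_spec H hm hf' hz
  obtain ⟨T, τ, c1, -, -, hev⟩ := C.loc_rep H hm hf hf' (C.Dm_lt H hm hf hz.1)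
    (by linarith [C.rr_pos H hm]) h2
  exact (c1.comp z (f := fun w => ((f, f'), w)) (by fun_prop)).congr_of_eventuallyEq
    ((((Continuous.prodMk_right (f, f')).tendsto z).eventually hev).mono fun _ h => (h hf hf').2.1)

lemma contDiffAt_tm (hf : C.Frm f) (hf' : C.Frm f') (hz : z ∈ C.dm f f') :
    ContDiffAt ℝ ∞ (C.tm f f') z := by
  obtain ⟨h1, h2⟩ := C.Tf_spec H hm hf' hz
  obtain ⟨T, τ, -, c1, -, hev⟩ := C.loc_rep H hm hf hf' (C.Dm_lt H hm hf hz.1)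
    (by linarith [C.rr_pos H hm]) h2
  exact (c1.comp z (f := fun w => ((f, f'), w)) (by fun_prop)).congr_of_eventuallyEq
    ((((Continuous.prodMk_right (f, f')).tendsto z).eventually hev).mono fun _ h => (h hf hf').2.2)

/-- the charts are open maps, jointly in the frame (`loc_cross` at `ft ξ η s`,
`continuousOn_ft`, `continuousOn_W`) -/
lemma ge_nhds (hf : C.Frm f) (hz : z ∈ C.Dm f) {V : Set (ZZ m)} (hV : V ∈ 𝓝 z) :
    ∀ᶠ k : FF n N m × Euc n × Euc n in 𝓝 (f, C.ge f z), C.Frm k.1 → k.2 ∈ GG n →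
      k.2 ∈ C.ge k.1 '' V := by
  have ha := H.a_pos
  have hu := C.un_uv H hf hz
  have hG := C.ge_GG H hf hz
  obtain ⟨τ, Z, -, z1, -, z2, hev⟩ := C.loc_cross H hm (t := 0) hf hz hu (C.gd_zero _ _).symm
    (C.vel_zero _ _).symm
  set s := -C.b (C.ge f z).1 (C.hy f z.1)
  have e0 : C.ft (C.ge f z).1 (C.ge f z).2 s = C.hy f z.1 := C.ft_ep ha hu
  have c1 : ContinuousAt (fun k : FF n N m × Euc n × Euc n => C.ft k.2.1 k.2.2 s) (f, C.ge f z) :=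
    ((C.continuousOn_ft ha).continuousAt ((isOpen_GO.prod isOpen_univ).mem_nhds
      (show (C.ge f z, s) ∈ GO n ×ˢ univ from ⟨GG_sub hG, trivial⟩))).comp_of_eq
      (f := fun k : FF n N m × Euc n × Euc n => (k.2, s)) (by fun_prop) rfl
  have c2 := (C.continuousAt_W H (bas_ne0 hG.1) _).comp_of_eq
    (ContinuousAt.prodMk (by fun_prop) c1 : ContinuousAt
      (fun k : FF n N m × Euc n × Euc n => (k.2.1, C.ft k.2.1 k.2.2 s)) (f, C.ge f z)) rfl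
  have c3 : Tendsto (fun k : FF n N m × Euc n × Euc n =>
      (k.1, C.ft k.2.1 k.2.2 s, C.W k.2.1 (C.ft k.2.1 k.2.2 s))) (𝓝 (f, C.ge f z))
      (𝓝 (f, C.hy f z.1, C.uv f z)) := by
    have := (continuousAt_fst.prodMk (c1.prodMk c2)).tendsto
    simpa only [Function.comp, e0, C.W_ge H hf hz] using this
  filter_upwards [c3.eventually hev, (z1.continuousAt.tendsto.comp c3).eventually (z2 ▸ hV)]
    with k k1 k2 h1 h2
  have hu' := C.un_W ha (bas_ne0 h2.1) (C.ft k.2.1 k.2.2 s)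
  refine ⟨_, k2, ((C.ge_of_gd H hu' (k1 h1 hu').1 (k1 h1 hu').2).1).trans ?_⟩
  exact Prod.ext (C.ep_ft ha h2 s).1 (C.ep_ft ha h2 s).2

lemma tendsto_ch (hf : C.Frm f) (hz : ‖z‖ < 2 * C.rr m) :
    Tendsto (fun k : FF n N m × Euc n × Euc n => C.ch k.1 k.2)
      (𝓝[{k | C.Frm k.1 ∧ k.2 ∈ GG n}] (f, C.ge f z)) (𝓝 z) := fun V hV => by
  have := C.ge_nhds H hm hf (C.Dm_of_le H hm hf hz.le)
    (inter_mem hV (isOpen_ball.mem_nhds (mem_ball_zero_iff.2 hz)))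
  refine mem_map.2 (eventually_nhdsWithin_iff.2 (this.mono fun k hk h => ?_))
  obtain ⟨w, h1, h2⟩ := hk h.1 h.2
  change C.ch k.1 k.2 ∈ V
  rw [← h2, C.ch_ge H hm h.1 (mem_ball_zero_iff.1 h1.2)]
  exact h1.1

/-! ### symmetries -/

lemma dm_fg (hf : C.Frm f) (hf' : C.Frm f') (hg : C.Deck g) :
    C.dm (fg g f) (fg g f') = C.dm f f' := by
  ext z
  refine and_congr_right fun hz => exists_congr fun w => and_congr_right fun hw => ?_
  have h1 := C.Dm_lt H hm hf hz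
  have h2 := C.Dm_lt H hm hf' (mem_ball_zero_iff.1 hw)
  rw [C.ge_fg H hf hg h1, C.ge_fg H hf' hg h2]
  refine ⟨fun e => Prod.ext ?_ ?_, fun e => by rw [e]⟩
  · exact C.act_inj H.a_pos hg (C.ge_GG H hf' h2).1 (C.ge_GG H hf h1).1 (congrArg Prod.fst e)
  · exact C.act_inj H.a_pos hg (C.ge_GG H hf' h2).2.1 (C.ge_GG H hf h1).2.1 (congrArg Prod.snd e)

lemma Tf_fg (hf : C.Frm f) (hf' : C.Frm f') (hg : C.Deck g) (hz : z ∈ C.dm f f') :
    C.Tf (fg g f) (fg g f') z = C.Tf f f' z ∧ C.tm (fg g f) (fg g f') z = C.tm f f' z := by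
  obtain ⟨h1, h2⟩ := C.hy_Tf H hm hf hf' hz
  exact (C.Tf_of_gd H hm (hf.fg C hg) (hf'.fg C hg) hz.1 (C.Tf_spec H hm hf' hz).1
    (by rw [C.hy_fg hf' hg, C.hy_fg hf hg, C.uv_fg hf hg, h1,
      hg.gd_eq C (C.un_uv H hf (C.Dm_lt H hm hf hz.1)).mem])
    (by rw [C.uv_fg hf' hg, C.hy_fg hf hg, C.uv_fg hf hg, h2, hg.vel_eq C])).2

omit H hm in
lemma dm_fp : flp z ∈ C.dm (fp f) (fp f') ↔ z ∈ C.dm f f' := by
  refine and_congr (by rw [norm_flp]) ⟨fun ⟨w, h1, h2⟩ => ⟨flp w, ?_, ?_⟩, fun ⟨w, h1, h2⟩ =>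
    ⟨flp w, ?_, by rw [C.ge_fp, C.ge_fp, h2]⟩⟩
  · rwa [mem_ball_zero_iff, norm_flp, ← mem_ball_zero_iff]
  · rw [← flp_flp w, C.ge_fp, C.ge_fp] at h2
    exact Prod.swap_injective h2
  · rwa [mem_ball_zero_iff, norm_flp, ← mem_ball_zero_iff]

lemma Tf_fp (hf : C.Frm f) (hf' : C.Frm f') (hz : z ∈ C.dm f f') :
    C.Tf (fp f) (fp f') (flp z) = flp (C.Tf f f' z) ∧
      C.tm (fp f) (fp f') (flp z) = -C.tm f f' z := by
  obtain ⟨h1, h2⟩ := C.hy_Tf H hm hf hf' hz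
  exact (C.Tf_of_gd H hm (hf.fp C) (hf'.fp C) (by rw [norm_flp]; exact hz.1)
    (by rw [norm_flp]; exact (C.Tf_spec H hm hf' hz).1)
    (by rw [C.uv_fp, C.gd_neg, neg_neg]; exact h1)
    (by rw [C.uv_fp, C.uv_fp, h2, C.hy_fp, show (flp z).1 = z.1 from rfl,
      C.vel_neg (C.un_uv H hf (C.Dm_lt H hm hf hz.1)).mem, neg_neg])).2

end Crest.Agent.N221.Cov
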