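import Crest.Agent.N221.D.Chart
import Crest.Agent.N221.D.Hor
import Crest.Agent.N221.H.Lin

/-!
Row 221, block Ch (helper94): the uniform DARBOUX ATLAS of the space `GG` of oriented geodesics.

A frame `f = (x, v, L)`: unit vector `v` at the point `x` of the cover, `L : ℝ^m → v^⊥` isometric
(`m + 1 = n`).  `hy f q = exp_x (L q)` is the transversal hypersurface, `z = (q, p) ∈ ZZ m` is the
geodesic through `hy f q` with direction `uv f z` (`J* uv = p`, positive side), `ge f z ∈ GG` its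
end points `(ξ, η)`.  In these charts `ω = om` is constant, the stable leaf of `ξ` is the graph
`gs f ξ` of the gradient `pq f ξ` of `bq f ξ`, the unstable leaf of `η` the graph `gu f η` of
`-pq f η`; `HH` = Hessian (`≤ -a/32`).  `Tf f f'` = transition map on `dm f f'`, `tm f f'` the
flight time, `lf f f' ξ` the induced map of stable leaves, `aa` the log density
(`det (-HH ξ - HH η) = exp (aa ξ + aa η)`, `|det D lf| = exp (-h tm + aa - aa ∘ lf)`).
The flow acts on frames by `fw`, deck maps by `fg`, the reversal by `fp` (on `ZZ` by `flp`).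
-/

set_option autoImplicit false

open MeasureTheory Set Filter Topology Metric
open scoped ContDiff RealInnerProductSpace ENNReal
open Crest.GeometryTopology.Submanifold
open Crest.Agent.R241.DDefs Crest.Agent.R241.D2
open Crest.Agent.R208.J Crest.Agent.R208.L

noncomputable section

namespace Crest.Agent.N221

/-- ambient space of frames -/
abbrev FF (n N m : ℕ) := Euc n × Euc N × (Euc m →L[ℝ] Euc N)

/-- Darboux coordinates `(q, p)` (sup norm) -/
abbrev ZZ (m : ℕ) := Euc m × Euc m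

/-- the symplectic form `dp ∧ dq` -/
def om {m : ℕ} (z w : ZZ m) : ℝ := ⟪z.2, w.1⟫ - ⟪w.2, z.1⟫

/-- reversal in the charts -/
def flp {m : ℕ} (z : ZZ m) : ZZ m := (z.1, -z.2)

/-- inverse Gram operator -/
def gi {k l : ℕ} (J : Euc k →L[ℝ] Euc l) : Euc k →L[ℝ] Euc k := Ring.inverse (J.adjoint ∘L J)

/-- reversed frame -/
def fp {n N m : ℕ} (f : FF n N m) : FF n N m := (f.1, -f.2.1, f.2.2)

/-- image of a frame under a deck map -/
def fg {n N m : ℕ} (g : Euc n → Euc n) (f : FF n N m) : FF n N m := (g f.1, f.2)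

section jets

variable {P E V : Type} [TopologicalSpace P] [NormedAddCommGroup E] [NormedSpace ℝ E]
  [NormedAddCommGroup V] [NormedSpace ℝ V]

/-- `F p` is smooth at `x` for `(p, x) ∈ K`, and all `x`-jets are jointly continuous on `K` -/
structure JC (F : P → E → V) (K : Set (P × E)) : Prop where
  sm : ∀ k ∈ K, ContDiffAt ℝ ∞ (F k.1) k.2
  cont : ∀ j : ℕ, ContinuousOn (fun k : P × E => iteratedFDeriv ℝ j (F k.1) k.2) K

/-- all `x`-jets are uniformly bounded on `K` -/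
def JB {P : Type} (F : P → E → V) (K : Set (P × E)) : Prop :=
  ∀ j : ℕ, ∃ B : ℝ, ∀ k ∈ K, ‖iteratedFDeriv ℝ j (F k.1) k.2‖ ≤ B

end jets

variable {n N m : ℕ} {a : ℝ} {S : Set (Euc N)}

/-- the data of `Cob G` (entropy `h`, transfer function `α`, constant `c` of `SplitS`) -/
structure Co (G : Geo n N (-(a ^ 2)) S) (h : ℝ) (α : TT N → ℝ) (c : ℝ) : Prop where
  cont : ContinuousOn α (US G)
  cob : ∀ z ∈ US G, ∀ t : ℝ, St G t z - h * t = α z - α (ph G t z)
  split : ∀ q ∈ US G, ldet G q = α q + α (rev q) + c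

namespace Cov

variable {G : Geo n N (-(a ^ 2)) S} (C : Cov G)

/-- orthonormal frames -/
structure Frm (f : FF n N m) : Prop where
  un : C.Un f.1 f.2.1
  iso : ∀ e, ‖f.2.2 e‖ = ‖e‖
  mem : ∀ e, f.2.2 e ∈ Vp G (C.pr f.1, f.2.1)

/-- the frame flow -/
def fw (f : FF n N m) (t : ℝ) : FF n N m :=
  (C.gd f.1 f.2.1 t, C.vel f.1 f.2.1 t, PT G (C.pr f.1, f.2.1) t ∘L f.2.2)

/-- the base vector of `f'` is the time `t` image of the one of `f` -/
def Ov (f f' : FF n N m) (t : ℝ) : Prop :=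
  f'.1 = C.gd f.1 f.2.1 t ∧ f'.2.1 = C.vel f.1 f.2.1 t

/-- the transversal -/
def hy (f : FF n N m) (q : Euc m) : Euc n := C.ex f.1 (f.2.2 q)

/-- its differential (read downstairs) -/
def Jh (f : FF n N m) (q : Euc m) : Euc m →L[ℝ] Euc N := fderiv ℝ (fun q => C.pr (C.hy f q)) q

/-- gradient of the defining function `y ↦ ⟪lg x y, v⟫` of the transversal -/
def nr0 (f : FF n N m) (y : Euc n) : Euc N :=
  fderiv ℝ C.pr y (gi (fderiv ℝ C.pr y) ((fderiv ℝ (C.lg f.1) y).adjoint f.2.1))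

/-- unit normal -/
def nr (f : FF n N m) (q : Euc m) : Euc N := ‖C.nr0 f (C.hy f q)‖⁻¹ • C.nr0 f (C.hy f q)

/-- natural domain of the chart (contains `‖p‖ < 1`) -/
def Dm (f : FF n N m) : Set (ZZ m) := {z | ⟪z.2, gi (C.Jh f z.1) z.2⟫ < 1}

/-- the unit vector at `hy f q` with momentum `p` -/
def uv (f : FF n N m) (z : ZZ m) : Euc N :=
  C.Jh f z.1 (gi (C.Jh f z.1) z.2) + √(1 - ⟪z.2, gi (C.Jh f z.1) z.2⟫) • C.nr f z.1

/-- the geodesic with coordinates `z` -/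
def ge (f : FF n N m) (z : ZZ m) : Euc n × Euc n :=
  (C.ep (C.hy f z.1) (C.uv f z), C.ep (C.hy f z.1) (-C.uv f z))

/-- generating function of the leaves -/
def bq (f : FF n N m) (ξ : Euc n) (q : Euc m) : ℝ := C.b ξ f.1 - C.b ξ (C.hy f q)

/-- its gradient -/
def pq (f : FF n N m) (ξ : Euc n) (q : Euc m) : Euc m := (C.Jh f q).adjoint (C.W ξ (C.hy f q))

/-- its Hessian -/
def HH (f : FF n N m) (ξ : Euc n) (q : Euc m) : Euc m →L[ℝ] Euc m := fderiv ℝ (C.pq f ξ) q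

/-- the stable leaf `{ξ} × ∂` -/
def gs (f : FF n N m) (ξ : Euc n) (q : Euc m) : ZZ m := (q, C.pq f ξ q)

/-- the unstable leaf `∂ × {η}` -/
def gu (f : FF n N m) (η : Euc n) (q : Euc m) : ZZ m := (q, -C.pq f η q)

/-- slope of `E^s` at `z` -/
def Ss (f : FF n N m) (z : ZZ m) : Euc m →L[ℝ] Euc m := C.HH f (C.ge f z).1 z.1

/-- slope of `E^u` at `z` -/
def Su (f : FF n N m) (z : ZZ m) : Euc m →L[ℝ] Euc m := -C.HH f (C.ge f z).2 z.1

/-- projection of the transversal to the horosphere of `ξ` -/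
def Bs (f : FF n N m) (ξ : Euc n) (q : Euc m) : Euc m →L[ℝ] Euc N :=
  Pv G (C.pr (C.hy f q), C.W ξ (C.hy f q)) ∘L C.Jh f q

/-- `ξ` is in front of `f` (`η` is behind `f` : `Fw (fp f) η`) -/
def Fw (f : FF n N m) (ξ : Euc n) : Prop := ‖ξ‖ = 1 ∧ 1 / 2 ≤ ⟪C.W ξ f.1, f.2.1⟫

/-- uniform radius -/
structure Rad (m : ℕ) (r : ℝ) : Prop where
  pos : 0 < r
  le : r ≤ 1 / 4
  inj : ∀ f : FF n N m, C.Frm f → InjOn (C.ge f) (closedBall 0 (2 * r))
  J_le : ∀ f : FF n N m, C.Frm f → ∀ q, ‖q‖ ≤ 2 * r → ‖C.Jh f q‖ ≤ 2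
  front : ∀ f : FF n N m, C.Frm f → ∀ z, ‖z‖ ≤ 2 * r → C.Fw f (C.ge f z).1
  side : ∀ f : FF n N m, C.Frm f → ∀ ξ, C.Fw f ξ → ∀ q, ‖q‖ ≤ 2 * r →
    1 / 4 ≤ ⟪C.W ξ (C.hy f q), C.nr f q⟫
  neg : ∀ f : FF n N m, C.Frm f → ∀ ξ, C.Fw f ξ → ∀ q, ‖q‖ ≤ 2 * r → ∀ e,
    ⟪C.HH f ξ q e, e⟫ ≤ -(a / 32 * ‖e‖ ^ 2)

/-- THE radius of the charts -/
def rr (m : ℕ) : ℝ := Classical.epsilon (C.Rad m)

/-- the chart -/
def ch (f : FF n N m) : Euc n × Euc n → ZZ m :=
  Function.invFunOn (C.ge f) (ball 0 (2 * C.rr m))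

/-- transition maps -/
def Tf (f f' : FF n N m) (z : ZZ m) : ZZ m := C.ch f' (C.ge f z)

/-- their domains -/
def dm (f f' : FF n N m) : Set (ZZ m) :=
  {z | ‖z‖ < C.rr m ∧ C.ge f z ∈ C.ge f' '' ball 0 (C.rr m)}

/-- flight time from the transversal of `f` to the one of `f'` -/
def tm (f f' : FF n N m) (z : ZZ m) : ℝ :=
  C.b (C.ge f z).1 (C.hy f z.1) - C.b (C.ge f z).1 (C.hy f' (C.Tf f f' z).1)

/-- the transition map on the stable leaf of `ξ` -/
def lf (f f' : FF n N m) (ξ : Euc n) (q : Euc m) : Euc m := (C.Tf f f' (C.gs f ξ q)).1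

/-- log Gram determinant -/
def kq (f : FF n N m) (ξ : Euc n) (q : Euc m) : ℝ :=
  Real.log ((C.Bs f ξ q).adjoint ∘L C.Bs f ξ q).det

/-- log density of the Margulis measure on the leaf of `ξ` -/
def aa (α : TT N → ℝ) (c : ℝ) (f : FF n N m) (ξ : Euc n) (q : Euc m) : ℝ :=
  α (rev (C.pr (C.hy f q), C.W ξ (C.hy f q))) + C.kq f ξ q / 2 + c / 2

end Cov

end Crest.Agent.N221
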