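import Crest.Agent.N221.Ch.Lin

/-! Row 221, block Ch: frames, the transversal, its normal. -/

set_option autoImplicit false
set_option linter.unusedSectionVars false
set_option linter.unusedVariables false

open MeasureTheory Set Filter Topology Metric
open scoped ContDiff RealInnerProductSpace ENNReal
open Crest.GeometryTopology.Submanifold
open Crest.Agent.R241.DDefs Crest.Agent.R241.D2
open Crest.Agent.R208.J Crest.Agent.R208.L

noncomputable section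

namespace Crest.Agent.N221.Cov

variable {n N m : ℕ} {a : ℝ} {S : Set (Euc N)} {G : Geo n N (-(a ^ 2)) S} (C : Cov G)
variable {f f' f'' : FF n N m} {z z' : ZZ m} {x y y' ξ η : Euc n} {v u u' : Euc N} {q q' : Euc m}
  {g : Euc n → Euc n} {s t : ℝ}

/-! ### frames -/

lemma exists_frm (hm : m + 1 = n) (hv : C.Un x v) :
    ∃ L : Euc m →L[ℝ] Euc N, C.Frm (x, v, L) := by
  obtain ⟨b⟩ := exists_basis (G := G) (q := (C.pr x, v)) hm hv.1 hv.2
  exact ⟨(Vp G (C.pr x, v)).subtypeL ∘L b.repr.symm.toContinuousLinearEquiv.toContinuousLinearMap,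
    hv, fun e => b.repr.symm.norm_map e, fun e => (b.repr.symm e).2⟩

lemma Frm.inj (hf : C.Frm f) : Function.Injective f.2.2 := fun e e' h => by
  have h1 := hf.iso (e - e')
  rw [map_sub, h, sub_self, norm_zero] at h1
  exact sub_eq_zero.1 (norm_eq_zero.1 h1.symm)

lemma Frm.tan (hf : C.Frm f) (e : Euc m) : f.2.2 e ∈ G.T (C.pr f.1) := (mem_Vp.1 (hf.mem e)).1

lemma Frm.adj_self (hf : C.Frm f) (e : Euc m) : f.2.2.adjoint (f.2.2 e) = e :=
  ext_inner_right ℝ fun e' => by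
    rw [ContinuousLinearMap.adjoint_inner_left]
    exact (LinearIsometry.mk f.2.2.toLinearMap hf.iso).inner_map_map e e'

lemma Frm.self_adj (hf : C.Frm f) (hm : m + 1 = n) {w : Euc N}
    (hw : w ∈ Vp G (C.pr f.1, f.2.1)) : f.2.2 (f.2.2.adjoint w) = w := by
  have h1 := finrank_Vp (G := G) (q := (C.pr f.1, f.2.1)) hf.un.1 hf.un.2
  obtain ⟨e, rfl⟩ := surj_of_finrank (Frm.inj C hf) hf.mem (by omega) hw
  rw [Frm.adj_self C hf]

lemma Frm.fp (hf : C.Frm f) : C.Frm (fp f) :=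
  ⟨Un.neg C hf.un, hf.iso, fun e => (Vp_rev (G := G) (C.pr f.1, f.2.1)).ge (hf.mem e)⟩

lemma fp_fp (f : FF n N m) : fp (fp f) = f := by simp [fp]

lemma Frm.fg (hf : C.Frm f) (hg : C.Deck g) : C.Frm (fg g f) :=
  ⟨(Deck.un C hg).2 hf.un, hf.iso, fun e => by
    show f.2.2 e ∈ Vp G (C.pr (g f.1), f.2.1)
    rw [hg.pr_eq]
    exact hf.mem e⟩

lemma Frm.fw (hf : C.Frm f) (t : ℝ) : C.Frm (C.fw f t) :=
  ⟨Un.vel C hf.un t, fun e => (norm_PT hf.un.1 t _).trans (hf.iso e), fun e => by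
    show PT G (C.pr f.1, f.2.1) t (f.2.2 e) ∈
      Vp G (C.pr (C.gd f.1 f.2.1 t), C.vel f.1 f.2.1 t)
    rw [← C.up_gd hf.un.1.2]
    exact (velocity_Vp hf.un.1 t).2 (hf.mem e)⟩

lemma fw_zero (f : FF n N m) : C.fw f 0 = f := by
  rw [fw, gd_zero, vel_zero, PT_zero, ContinuousLinearMap.id_comp]

lemma fw_add (hf : C.Frm f) (s t : ℝ) : C.fw (C.fw f s) t = C.fw f (s + t) := by
  refine Prod.ext (C.gd_add hf.un.1.2 s t) (Prod.ext (C.vel_add hf.un.1.2 s t) ?_)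
  ext1 e
  show PT G (C.pr (C.gd f.1 f.2.1 s), C.vel f.1 f.2.1 s) t (PT G (C.pr f.1, f.2.1) s (f.2.2 e)) =
    PT G (C.pr f.1, f.2.1) (s + t) (f.2.2 e)
  rw [← C.up_gd hf.un.1.2, PT_add hf.un.1]

lemma fw_fp (hf : C.Frm f) (t : ℝ) : C.fw (fp f) t = fp (C.fw f (-t)) :=
  Prod.ext (C.gd_neg _ _ t) (Prod.ext (C.vel_neg hf.un.1.2 t)
    (congrArg (· ∘L f.2.2) (PT_rev (q := (C.pr f.1, f.2.1)) hf.un.1 t)))

lemma fw_fg (hf : C.Frm f) (hg : C.Deck g) (t : ℝ) : C.fw (fg g f) t = fg g (C.fw f t) := by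
  refine Prod.ext (Deck.gd_eq C hg hf.un.1.2 t) (Prod.ext (Deck.vel_eq C hg _ _ t) ?_)
  show PT G (C.pr (g f.1), f.2.1) t ∘L f.2.2 = PT G (C.pr f.1, f.2.1) t ∘L f.2.2
  rw [hg.pr_eq]

lemma ov_fw (f : FF n N m) (t : ℝ) : C.Ov f (C.fw f t) t := ⟨rfl, rfl⟩

lemma Ov.symm (hf : C.Frm f) (h : C.Ov f f' t) : C.Ov f' f (-t) := by
  constructor
  · rw [h.1, h.2, C.gd_add hf.un.1.2, add_neg_cancel, gd_zero]
  · rw [h.1, h.2, C.vel_add hf.un.1.2, add_neg_cancel, vel_zero]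

lemma Ov.trans (hf : C.Frm f) (h : C.Ov f f' s) (h' : C.Ov f' f'' t) : C.Ov f f'' (s + t) := by
  constructor
  · rw [h'.1, h.1, h.2, C.gd_add hf.un.1.2]
  · rw [h'.2, h.1, h.2, C.vel_add hf.un.1.2]

lemma Ov.fp (hf : C.Frm f) (h : C.Ov f f' t) : C.Ov (fp f) (fp f') (-t) := by
  constructor
  · show f'.1 = C.gd f.1 (-f.2.1) (-t)
    rw [gd_neg, neg_neg, h.1]
  · show -f'.2.1 = C.vel f.1 (-f.2.1) (-t)
    rw [C.vel_neg hf.un.1.2, neg_neg, h.2]

lemma Ov.dd (hf : C.Frm f) (h : C.Ov f f' t) : C.dd f.1 f'.1 = |t| := by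
  rw [h.1, Un.dd_gd_zero C hf.un]

lemma ov_axis {l : ℝ} (h : C.Axis g f.1 f.2.1 l) : C.Ov f (fg g f) l := ⟨h.eq, h.vel.symm⟩

lemma contDiffAt_fw (hf : C.Frm f) (t : ℝ) :
    ContDiffAt ℝ ∞ (fun k : FF n N m × ℝ => C.fw k.1 k.2) (f, t) := by
  have h0 : ContDiff ℝ ∞ fun k : FF n N m × ℝ => ((C.pr k.1.1, k.1.2.1), k.2) :=
    ((C.pr_smooth.comp (by fun_prop)).prodMk (by fun_prop)).prodMk contDiff_snd
  have h1 : ContDiff ℝ ∞ fun k : FF n N m × ℝ => C.gd k.1.1 k.1.2.1 k.2 :=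
    C.contDiff_gd.comp (f := fun k : FF n N m × ℝ => (k.1.1, k.1.2.1, k.2)) (by fun_prop)
  have h2 := ((contDiffAt_fl' G (q := (C.pr f.1, f.2.1)) hf.un.1 t).comp (f, t) h0.contDiffAt).snd
  have h3 := (contDiffAt_PT (q := (C.pr f.1, f.2.1)) hf.un.1 t).comp (f, t) h0.contDiffAt
  exact h1.contDiffAt.prodMk (h2.prodMk (h3.clm_comp (by fun_prop)))

lemma isClosed_frm : IsClosed {f : FF n N m | C.Frm f} := by
  have hp : Continuous fun f : FF n N m => C.pr f.1 := C.pr_smooth.continuous.comp continuous_fst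
  have hP : Continuous fun f : FF n N m => G.P (C.pr f.1) := G.contDiff_P.continuous.comp hp
  have e : {f : FF n N m | C.Frm f} = ({f | G.P (C.pr f.1) f.2.1 = f.2.1} ∩ {f | ‖f.2.1‖ = 1}) ∩
      ⋂ e, ({f | ‖f.2.2 e‖ = ‖e‖} ∩ ({f | G.P (C.pr f.1) (f.2.2 e) = f.2.2 e} ∩
        {f | ⟪f.2.2 e, f.2.1⟫ = 0})) := by
    ext f
    simp only [mem_ofPred_eq, mem_inter_iff, mem_iInter, ← P_eq_self G (C.pr_mem _)]
    exact ⟨fun h => ⟨⟨h.un.1.2, h.un.2⟩, fun e => ⟨h.iso e, mem_Vp.1 (h.mem e)⟩⟩,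
      fun h => ⟨⟨⟨C.pr_mem _, h.1.1⟩, h.1.2⟩, fun e => (h.2 e).1, fun e => mem_Vp.2 (h.2 e).2⟩⟩
  rw [e]
  exact ((isClosed_eq (hP.clm_apply (by fun_prop)) (by fun_prop)).inter
    (isClosed_eq (by fun_prop) continuous_const)).inter (isClosed_iInter fun e =>
      (isClosed_eq (by fun_prop) continuous_const).inter
        ((isClosed_eq (hP.clm_apply (by fun_prop)) (by fun_prop)).inter
          (isClosed_eq (by fun_prop) continuous_const)))

lemma isCompact_frm (D : ℝ) : IsCompact {f : FF n N m | C.Frm f ∧ ‖f.1‖ ≤ D} := by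
  refine Metric.isCompact_of_isClosed_isBounded
    (C.isClosed_frm.inter (isClosed_le continuous_fst.norm continuous_const))
    ((isBounded_closedBall (x := (0 : FF n N m)) (r := max D 1)).subset fun f hf => ?_)
  rw [mem_closedBall_zero_iff, Prod.norm_def, Prod.norm_def]
  refine max_le_max hf.2 (max_le hf.1.un.2.le ?_)
  exact ContinuousLinearMap.opNorm_le_bound _ zero_le_one fun e => by rw [hf.1.iso, one_mul]

/-! ### the transversal -/

lemma contDiff_hy : ContDiff ℝ ∞ fun k : FF n N m × Euc m => C.hy k.1 k.2 :=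
  C.ex_smooth.comp (f := fun k : FF n N m × Euc m => (k.1.1, k.1.2.2 k.2)) (by fun_prop)

lemma contDiff_hy' (f : FF n N m) : ContDiff ℝ ∞ (C.hy f) :=
  C.contDiff_hy.comp (f := fun q : Euc m => (f, q)) (by fun_prop)

lemma contDiff_Jh : ContDiff ℝ ∞ fun k : FF n N m × Euc m => C.Jh k.1 k.2 :=
  ContDiff.fderiv (f := fun (k : FF n N m × Euc m) (q : Euc m) => C.pr (C.hy k.1 q))
    (C.pr_smooth.comp (C.contDiff_hy.comp
      (f := fun w : (FF n N m × Euc m) × Euc m => (w.1.1, w.2)) (by fun_prop)))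
    contDiff_snd (by simp)

lemma contDiff_Jh' (f : FF n N m) : ContDiff ℝ ∞ (C.Jh f) :=
  C.contDiff_Jh.comp (f := fun q : Euc m => (f, q)) (by fun_prop)

lemma Jh_eq (f : FF n N m) (q : Euc m) :
    C.Jh f q = fderiv ℝ C.pr (C.hy f q) ∘L fderiv ℝ (C.hy f) q :=
  fderiv_comp q (C.diff_pr _) ((C.contDiff_hy' f).differentiable (by simp) q)

lemma hasFDerivAt_pr_hy (f : FF n N m) (q : Euc m) :
    HasFDerivAt (fun q => C.pr (C.hy f q)) (C.Jh f q) q :=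
  ((C.diff_pr _).comp q ((C.contDiff_hy' f).differentiable (by simp) q)).hasFDerivAt

lemma hy_zero (f : FF n N m) : C.hy f 0 = f.1 := by rw [hy, map_zero, C.ex_zero]

lemma lg_hy (hf : C.Frm f) (q : Euc m) : C.lg f.1 (C.hy f q) = f.2.2 q :=
  C.lg_ex _ _ (Frm.tan C hf q)

lemma dd_hy (hf : C.Frm f) (q : Euc m) : C.dd f.1 (C.hy f q) = ‖q‖ := by
  rw [dd, C.lg_hy hf, hf.iso]

lemma adj_lg_hy (hf : C.Frm f) (q : Euc m) : f.2.2.adjoint (C.lg f.1 (C.hy f q)) = q := by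
  rw [C.lg_hy hf, Frm.adj_self C hf]

lemma hy_inj (hf : C.Frm f) : Function.Injective (C.hy f) := fun q q' h => by
  rw [← C.adj_lg_hy hf q, h, C.adj_lg_hy hf]

lemma inner_lg_hy (hf : C.Frm f) (q : Euc m) : ⟪C.lg f.1 (C.hy f q), f.2.1⟫ = 0 := by
  rw [C.lg_hy hf]
  exact (mem_Vp.1 (hf.mem q)).2

lemma eq_hy (hf : C.Frm f) (hm : m + 1 = n) (h : ⟪C.lg f.1 y, f.2.1⟫ = 0) :
    C.hy f (f.2.2.adjoint (C.lg f.1 y)) = y := by
  rw [hy, Frm.self_adj C hf hm (mem_Vp.2 ⟨C.lg_mem _ _, h⟩), C.ex_lg]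

lemma Jh_mem (f : FF n N m) (q e : Euc m) : C.Jh f q e ∈ G.T (C.pr (C.hy f q)) := by
  rw [Jh_eq]
  exact C.fderiv_pr_mem _ _

lemma fderiv_lg_hy (hf : C.Frm f) (q e : Euc m) :
    fderiv ℝ (C.lg f.1) (C.hy f q) (fderiv ℝ (C.hy f) q e) = f.2.2 e := by
  have h1 := ((C.contDiff_lg f.1).differentiable (by simp) _).hasFDerivAt.comp q
    ((C.contDiff_hy' f).differentiable (by simp) q).hasFDerivAt
  rw [show C.lg f.1 ∘ C.hy f = f.2.2 from funext (C.lg_hy hf)] at h1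
  exact congrArg (fun L : Euc m →L[ℝ] Euc N => L e) (h1.unique f.2.2.hasFDerivAt)

/-- `norm_fderiv_lg_le` and `lg_hy` -/
lemma le_Jh (ha : 0 < a) (hf : C.Frm f) (q e : Euc m) : ‖e‖ ≤ ‖C.Jh f q e‖ := by
  rw [← hf.iso, ← C.fderiv_lg_hy hf q e, Jh_eq]
  exact C.norm_fderiv_lg_le ha.le _ _ _

lemma Jh_inj (ha : 0 < a) (hf : C.Frm f) (q : Euc m) : Function.Injective (C.Jh f q) :=
  fun e e' h => by
  have h1 := C.le_Jh ha hf q (e - e')
  rw [map_sub, h, sub_self, norm_zero] at h1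
  exact sub_eq_zero.1 (norm_le_zero_iff.1 h1)

lemma Jh_zero (hf : C.Frm f) : C.Jh f 0 = f.2.2 := by
  have h1 : HasFDerivAt (Exp G (C.pr f.1)) (fderiv ℝ (Exp G (C.pr f.1)) 0) (f.2.2 0) := by
    rw [map_zero]
    exact ((Crest.Agent.R241.D3c.contDiffAt_Exp' G (C.pr_mem _)
      (G.T _).zero_mem).differentiableAt (by simp)).hasFDerivAt
  have h2 := h1.comp 0 f.2.2.hasFDerivAt
  have h3 : Exp G (C.pr f.1) ∘ f.2.2 = fun q => C.pr (C.hy f q) :=
    funext fun q => (C.pr_ex _ _ (Frm.tan C hf q)).symm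
  rw [h3] at h2
  rw [(C.hasFDerivAt_pr_hy f 0).unique h2]
  ext1 e
  exact Crest.Agent.R241.D3c.fderiv_Exp_zero G (C.pr_mem _) (Frm.tan C hf e)

/-- the second fundamental form of the transversal vanishes at the centre (symmetric, and
`t ↦ pr (hy f (t e))` is a geodesic) -/
lemma P_fderiv_Jh_zero (hf : C.Frm f) (e e' : Euc m) :
    G.P (C.pr f.1) (fderiv ℝ (C.Jh f) 0 e e') = 0 := by
  have hd : ∀ e, G.P (C.pr f.1) (fderiv ℝ (C.Jh f) 0 e e) = 0 := by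
    intro e
    have hq : (C.pr f.1, f.2.2 e) ∈ TS G := ⟨C.pr_mem _, Frm.tan C hf e⟩
    have hl : ∀ t : ℝ, HasDerivAt (fun t : ℝ => t • e) e t := fun t => by
      simpa using (hasDerivAt_id t).smul_const e
    have h1 : (fun t : ℝ => C.Jh f (t • e) e) = C.vel f.1 (f.2.2 e) := by
      funext t
      refine ((C.hasFDerivAt_pr_hy f (t • e)).comp_hasDerivAt t (hl t)).unique ?_
      refine (C.hasDerivAt_pr_gd hq.2 t).congr_of_eventuallyEq (Eventually.of_forall fun s => ?_)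
      show C.pr (C.ex f.1 (f.2.2 (s • e))) = C.pr (C.ex f.1 (s • f.2.2 e))
      rw [map_smul]
    have h2 : HasFDerivAt (C.Jh f) (fderiv ℝ (C.Jh f) 0) ((0 : ℝ) • e) := by
      rw [zero_smul]
      exact ((C.contDiff_Jh' f).differentiable (by simp) 0).hasFDerivAt
    have h3 : HasDerivAt (fun t : ℝ => C.Jh f (t • e) e) (fderiv ℝ (C.Jh f) 0 e e) 0 := by
      have h := HasFDerivAt.comp_hasDerivAt (f := fun t : ℝ => t • e) (0 : ℝ) h2 (hl 0)
      exact (ContinuousLinearMap.apply ℝ (Euc N) e).hasFDerivAt.comp_hasDerivAt (0 : ℝ) h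
    have h4 : HasDerivAt (C.vel f.1 (f.2.2 e)) (dP G (C.pr f.1, f.2.2 e) (f.2.2 e)) 0 := by
      have h := hda_snd (hasDerivAt_fl G (complete G hq 0))
      rwa [fl_zero] at h
    rw [h1] at h3
    rw [h3.unique h4]
    exact dP_tangent_normal hq hq.2
  have hs : fderiv ℝ (C.Jh f) 0 e' e = fderiv ℝ (C.Jh f) 0 e e' :=
    ((C.pr_smooth.comp (C.contDiff_hy' f)).contDiffAt.isSymmSndFDerivAt
      (by rw [minSmoothness_of_isRCLikeNormedField]; exact WithTop.coe_le_coe.2 le_top)).eq e' e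
  have h5 := hd (e + e')
  simp only [map_add, add_apply, hd e, hd e', hs, zero_add, add_zero] at h5
  rw [← two_smul ℝ] at h5
  exact (smul_eq_zero.1 h5).resolve_left two_ne_zero

/-! ### the normal -/

lemma eq_of_inner_pr (hu : u ∈ G.T (C.pr y)) (hu' : u' ∈ G.T (C.pr y))
    (h : ∀ e, ⟪u, fderiv ℝ C.pr y e⟫ = ⟪u', fderiv ℝ C.pr y e⟫) : u = u' := by
  obtain ⟨e, he⟩ := C.fderiv_pr_surj y ((G.T _).sub_mem hu hu')
  have h1 := h e
  rw [← sub_eq_zero, ← inner_sub_left, he] at h1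
  exact sub_eq_zero.1 (inner_self_eq_zero.1 h1)

lemma nr0_mem (f : FF n N m) (y : Euc n) : C.nr0 f y ∈ G.T (C.pr y) := C.fderiv_pr_mem _ _

lemma inner_nr0 (f : FF n N m) (y e : Euc n) :
    ⟪C.nr0 f y, fderiv ℝ C.pr y e⟫ = ⟪fderiv ℝ (C.lg f.1) y e, f.2.1⟫ := by
  rw [nr0, ← ContinuousLinearMap.adjoint_inner_left, gram_gi (C.fderiv_pr_inj y),
    ContinuousLinearMap.adjoint_inner_left, real_inner_comm]

lemma contDiff_nr0 : ContDiff ℝ ∞ fun k : FF n N m × Euc n => C.nr0 k.1 k.2 := by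
  have h1 : ContDiff ℝ ∞ fun k : FF n N m × Euc n => fderiv ℝ C.pr k.2 :=
    (C.pr_smooth.fderiv_right (by simp)).comp contDiff_snd
  have h2 : ContDiff ℝ ∞ fun k : FF n N m × Euc n => fderiv ℝ (C.lg k.1.1) k.2 :=
    ContDiff.fderiv (f := fun (k : FF n N m × Euc n) (y : Euc n) => C.lg k.1.1 y)
      (C.lg_smooth.comp (f := fun w : (FF n N m × Euc n) × Euc n => (w.1.1.1, w.2)) (by fun_prop))
      contDiff_snd (by simp)
  have h3 : ContDiff ℝ ∞ fun k : FF n N m × Euc n => gi (fderiv ℝ C.pr k.2) :=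
    contDiff_iff_contDiffAt.2 fun k =>
      ContDiffAt.comp (g := gi) (f := fun k : FF n N m × Euc n => fderiv ℝ C.pr k.2) k
        (contDiffAt_gi (C.fderiv_pr_inj k.2)) h1.contDiffAt
  exact h1.clm_apply (h3.clm_apply ((contDiff_adj.comp h2).clm_apply (by fun_prop)))

/-- `D (lg x)` is onto `T` (differentiate `lg x (ex x w) = w` along `v`) -/
lemma nr0_ne (hf : C.Un f.1 f.2.1) (y : Euc n) : C.nr0 f y ≠ 0 := by
  intro h0
  have hl : HasDerivAt (fun t : ℝ => C.lg f.1 y + t • f.2.1) f.2.1 0 := by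
    simpa using ((hasDerivAt_id (0 : ℝ)).smul_const f.2.1).const_add (C.lg f.1 y)
  have h1 := ((C.contDiff_ex f.1).differentiable (by simp) _).hasFDerivAt.comp_hasDerivAt
    (0 : ℝ) hl
  have h2 := ((C.contDiff_lg f.1).differentiable (by simp) _).hasFDerivAt.comp_hasDerivAt
    (0 : ℝ) h1
  have h3 := h2.unique (hl.congr_of_eventuallyEq (Eventually.of_forall fun t =>
    C.lg_ex _ _ ((G.T _).add_mem (C.lg_mem _ _) ((G.T _).smul_mem t hf.1.2))))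
  simp only [Function.comp, zero_smul, add_zero, C.ex_lg] at h3
  have h4 := C.inner_nr0 f y (fderiv ℝ (C.ex f.1) (C.lg f.1 y) f.2.1)
  rw [h0, h3, inner_zero_left, real_inner_self_eq_norm_sq, show ‖f.2.1‖ = 1 from hf.2] at h4
  norm_num at h4

lemma nr0_self (hf : C.Un f.1 f.2.1) : C.nr0 f f.1 = f.2.1 := by
  refine C.eq_of_inner_pr (C.nr0_mem f _) hf.1.2 fun e => ?_
  have h1 := C.fderiv_Exp_lg f.1 f.1 e
  rw [lg_self, Crest.Agent.R241.D3c.fderiv_Exp_zero G (C.pr_mem _) h1.1] at h1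
  rw [inner_nr0, h1.2, real_inner_comm]

/-- derivative of the defining function along a geodesic -/
lemma hasDerivAt_cross (f : FF n N m) (hu : u ∈ G.T (C.pr y)) (t : ℝ) :
    HasDerivAt (fun t => ⟪C.lg f.1 (C.gd y u t), f.2.1⟫) ⟪C.nr0 f (C.gd y u t), C.vel y u t⟫ t := by
  have h1 := ((C.contDiff_lg f.1).differentiable (by simp) _).hasFDerivAt.comp_hasDerivAt t
    (C.hasDerivAt_gd y u t)
  rw [← C.fderiv_pr_deriv_gd hu, inner_nr0]
  simpa using h1.inner ℝ (hasDerivAt_const t f.2.1)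

lemma un_nr (hf : C.Frm f) (q : Euc m) : C.Un (C.hy f q) (C.nr f q) :=
  ⟨⟨C.pr_mem _, (G.T _).smul_mem _ (C.nr0_mem f _)⟩, by
    show ‖C.nr f q‖ = 1
    rw [nr, norm_smul, norm_inv, norm_norm,
      inv_mul_cancel₀ (norm_ne_zero_iff.2 (C.nr0_ne hf.un _))]⟩

lemma inner_nr_Jh (hf : C.Frm f) (q e : Euc m) : ⟪C.nr f q, C.Jh f q e⟫ = 0 := by
  rw [nr, real_inner_smul_left, Jh_eq, ContinuousLinearMap.comp_apply, inner_nr0,
    C.fderiv_lg_hy hf, (mem_Vp.1 (hf.mem e)).2, mul_zero]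

lemma nr_zero (hf : C.Frm f) : C.nr f 0 = f.2.1 := by
  rw [nr, hy_zero, C.nr0_self hf.un, show ‖f.2.1‖ = 1 from hf.un.2, inv_one, one_smul]

lemma contDiffAt_nr (hf : C.Frm f) (q : Euc m) :
    ContDiffAt ℝ ∞ (fun k : FF n N m × Euc m => C.nr k.1 k.2) (f, q) := by
  have h1 : ContDiff ℝ ∞ fun k : FF n N m × Euc m => C.nr0 k.1 (C.hy k.1 k.2) :=
    C.contDiff_nr0.comp (f := fun k : FF n N m × Euc m => (k.1, C.hy k.1 k.2))
      (contDiff_fst.prodMk C.contDiff_hy)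
  have h2 := C.nr0_ne hf.un (C.hy f q)
  exact ((h1.contDiffAt.norm ℝ h2).inv (norm_ne_zero_iff.2 h2)).smul h1.contDiffAt

lemma decomp (ha : 0 < a) (hm : m + 1 = n) (hf : C.Frm f) (hu : u ∈ G.T (C.pr (C.hy f q))) :
    u = C.Jh f q (gi (C.Jh f q) ((C.Jh f q).adjoint u)) + ⟪u, C.nr f q⟫ • C.nr f q :=
  decomp_normal (C.Jh_inj ha hf q) (C.Jh_mem f q) ((G.finrank_T _ (C.pr_mem _)).trans hm.symm)
    (C.un_nr hf q).1.2 (C.un_nr hf q).2 (C.inner_nr_Jh hf q) hu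

/-! ### symmetries -/

lemma hy_fp (f : FF n N m) : C.hy (fp f) = C.hy f := rfl
lemma Jh_fp (f : FF n N m) : C.Jh (fp f) = C.Jh f := rfl
lemma nr_fp (f : FF n N m) (q : Euc m) : C.nr (fp f) q = -C.nr f q := by
  have h : ∀ y, C.nr0 (fp f) y = -C.nr0 f y := fun y => by
    simp only [nr0, fp, map_neg]
  rw [nr, nr, h, norm_neg, smul_neg, hy_fp]

lemma hy_fg (hf : C.Frm f) (hg : C.Deck g) (q : Euc m) : C.hy (fg g f) q = g (C.hy f q) :=
  (hg.ex_eq _ _ (Frm.tan C hf q)).symm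
lemma pr_hy_fg (hf : C.Frm f) (hg : C.Deck g) (q : Euc m) :
    C.pr (C.hy (fg g f) q) = C.pr (C.hy f q) := by rw [C.hy_fg hf hg, hg.pr_eq]
lemma Jh_fg (hf : C.Frm f) (hg : C.Deck g) : C.Jh (fg g f) = C.Jh f := by
  funext q
  simp only [Jh, C.pr_hy_fg hf hg]
lemma nr0_fg (hg : C.Deck g) (f : FF n N m) (y : Euc n) : C.nr0 (fg g f) (g y) = C.nr0 f y := by
  have hd := (hg.smooth.differentiable (by simp) y).hasFDerivAt
  have h1 := (C.diff_pr (g y)).hasFDerivAt.comp y hd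
  rw [show C.pr ∘ g = C.pr from funext hg.pr_eq] at h1
  have h2 := ((C.contDiff_lg (g f.1)).differentiable (by simp) (g y)).hasFDerivAt.comp y hd
  rw [show C.lg (g f.1) ∘ g = C.lg f.1 from funext (hg.lg_eq f.1)] at h2
  refine C.eq_of_inner_pr (hg.pr_eq y ▸ C.nr0_mem (fg g f) (g y)) (C.nr0_mem f y) fun e => ?_
  rw [C.inner_nr0 f, h1.fderiv, h2.fderiv, ContinuousLinearMap.comp_apply, inner_nr0]
  rfl
lemma nr_fg (hf : C.Frm f) (hg : C.Deck g) : C.nr (fg g f) = C.nr f := by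
  funext q
  rw [nr, nr, C.hy_fg hf hg, C.nr0_fg hg]

end Crest.Agent.N221.Cov
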